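import Vale.Agent.P287D.St
import Vale.Agent.P287D.Va.Bas

/-!
# P287D: cones of b-divisors, elementary closure properties
-/

open Set

noncomputable section

namespace Vale.Agent.P287D.Gs

variable {K : Type} [Field K] [Algebra ℂ K] {n : ℕ} {Λ Ω A B β γ Z Z' G : BD K} {P : Pl K}

/-! ### cones -/

theorem cmb_eq (l : Finset K →₀ ℝ) : cmb l = Finsupp.linearCombination ℝ mx l := rfl

theorem smp_zero : Smp (0 : BD K) := ⟨0, le_rfl, by simp [cmb_eq]⟩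

theorem smp_add (h : Smp β) (h' : Smp γ) : Smp (β + γ) := by
  obtain ⟨l, a, rfl⟩ := h
  obtain ⟨l', a', rfl⟩ := h'
  exact ⟨l + l', add_nonneg a a', by simp [cmb_eq]⟩

theorem smp_smul (h : Smp β) {c : ℝ} (hc : 0 ≤ c) : Smp (c • β) := by
  obtain ⟨l, a, rfl⟩ := h
  exact ⟨c • l, fun s => mul_nonneg hc (a s), by simp [cmb_eq]⟩

theorem smp_mx (s : Finset K) : Smp (mx s) :=
  ⟨Finsupp.single s 1, fun u => by
    classical
    rw [Finsupp.single_apply]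
    split_ifs <;> simp, by simp [cmb_eq]⟩

theorem smp_car (h : Smp β) : β ∈ Car K := by
  obtain ⟨l, _, rfl⟩ := h
  exact Submodule.sum_mem _ fun s _ => Submodule.smul_mem _ _ (Submodule.subset_span ⟨s, rfl⟩)

theorem smp_prn (h : β ∈ Prn K) : Smp β := by
  suffices k : Smp β ∧ Smp (-β) from k.1
  induction h using Submodule.span_induction with
  | mem x h =>
    obtain ⟨f, rfl⟩ := h
    exact ⟨dv_eq_mx f ▸ smp_mx _, mx_single f ▸ smp_mx _⟩
  | zero => exact ⟨smp_zero, by simpa using smp_zero⟩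
  | add x y _ _ a b => exact ⟨smp_add a.1 b.1, by rw [neg_add]; exact smp_add a.2 b.2⟩
  | smul c x _ a =>
    rcases le_total 0 c with h | h
    · exact ⟨smp_smul a.1 h, by rw [← smul_neg]; exact smp_smul a.2 h⟩
    · refine ⟨?_, by rw [← neg_smul]; exact smp_smul a.1 (neg_nonneg.2 h)⟩
      simpa using smp_smul a.2 (neg_nonneg.2 h)

theorem prn_car (h : β ∈ Prn K) : β ∈ Car K := smp_car (smp_prn h)

theorem smp_cases {c : ℝ} (hΛ : Smp Λ) {ε : ℝ} (e : 0 < ε) (h : Smp (Λ + ε • β))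
    (h' : Smp (Λ - ε • β)) (hc : |c| ≤ ε) : Smp (Λ + c • β) := by
  have a := abs_le.1 hc
  have k := smp_add (smp_smul h (c := (ε + c) / (2 * ε)) (div_nonneg (by linarith [a.1]) (by positivity)))
    (smp_smul h' (c := (ε - c) / (2 * ε)) (div_nonneg (by linarith [a.2]) (by positivity)))
  have _ := hΛ
  have q : Λ + c • β = ((ε + c) / (2 * ε)) • (Λ + ε • β) + ((ε - c) / (2 * ε)) • (Λ - ε • β) := by
    funext P
    simp only [Pi.add_apply, Pi.sub_apply, Pi.smul_apply, smul_eq_mul]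
    field_simp
    ring
  rw [q]
  exact k

theorem dsc_small (hΛ : Smp Λ) (h : Dsc Λ β) : ∃ ε : ℝ, 0 < ε ∧ ∀ c : ℝ, |c| ≤ ε → Smp (Λ + c • β) :=
  let ⟨ε, e, a, b⟩ := h
  ⟨ε, e, fun _ hc => smp_cases hΛ e a b hc⟩

theorem dsc_of {ε : ℝ} (e : 0 < ε) (h : ∀ c : ℝ, |c| ≤ ε → Smp (Λ + c • β)) : Dsc Λ β :=
  ⟨ε, e, h ε (abs_of_pos e).le, by
    rw [sub_eq_add_neg, ← neg_smul]
    exact h _ (by rw [abs_neg, abs_of_pos e])⟩

/-- the Cartier divisors of `V Λ` -/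
def dS (hΛ : Smp Λ) : Submodule ℝ (BD K) where
  carrier := {β | Dsc Λ β}
  zero_mem' := ⟨1, one_pos, by simpa using hΛ, by simpa using hΛ⟩
  add_mem' := fun {a b} ha hb => by
    obtain ⟨ε, e, h⟩ := dsc_small hΛ ha
    obtain ⟨δ, d, k⟩ := dsc_small hΛ hb
    refine dsc_of (ε := min ε δ / 2) (by positivity) fun c hc => ?_
    have q : |2 * c| ≤ min ε δ := by rw [abs_mul, abs_two]; linarith
    have r := smp_smul (smp_add (h _ (q.trans (min_le_left _ _))) (k _ (q.trans (min_le_right _ _))))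
      (c := 1 / 2) (by norm_num)
    have w : Λ + c • (a + b) = (1 / 2 : ℝ) • (Λ + (2 * c) • a + (Λ + (2 * c) • b)) := by module
    rw [w]
    exact r
  smul_mem' := fun c a ha => by
    obtain ⟨ε, e, h⟩ := dsc_small hΛ ha
    refine dsc_of (ε := ε / (|c| + 1)) (by positivity) fun d hd => ?_
    rw [smul_smul]
    refine h _ ?_
    rw [abs_mul]
    have := (le_div_iff₀ (by positivity)).1 hd
    nlinarith [abs_nonneg d, abs_nonneg c]

theorem mem_dS (hΛ : Smp Λ) : β ∈ dS hΛ ↔ Dsc Λ β := Iff.rfl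

theorem dsc_add (hΛ : Smp Λ) (h : Dsc Λ β) (h' : Dsc Λ γ) : Dsc Λ (β + γ) := (dS hΛ).add_mem h h'

theorem dsc_sub (hΛ : Smp Λ) (h : Dsc Λ β) (h' : Dsc Λ γ) : Dsc Λ (β - γ) := (dS hΛ).sub_mem h h'

theorem dsc_neg (hΛ : Smp Λ) (h : Dsc Λ β) : Dsc Λ (-β) := (dS hΛ).neg_mem h

theorem dsc_smul (hΛ : Smp Λ) (c : ℝ) (h : Dsc Λ β) : Dsc Λ (c • β) := (dS hΛ).smul_mem c h

theorem dsc_zero (hΛ : Smp Λ) : Dsc Λ 0 := (dS hΛ).zero_mem

theorem dsc_self (hΛ : Smp Λ) : Dsc Λ Λ :=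
  ⟨1, one_pos, by simpa using smp_add hΛ hΛ, by simpa using smp_zero⟩

theorem dsc_prn (hΛ : Smp Λ) (h : β ∈ Prn K) : Dsc Λ β :=
  ⟨1, one_pos, by simpa using smp_add hΛ (smp_prn h), by
    simpa [sub_eq_add_neg] using smp_add hΛ (smp_prn (neg_mem h))⟩

theorem dsc_car (hΛ : Smp Λ) (h : Dsc Λ β) : β ∈ Car K := by
  obtain ⟨ε, e, a, _⟩ := h
  have k := (Car K).smul_mem ε⁻¹ (sub_mem (smp_car a) (smp_car hΛ))
  simpa [smul_smul, e.ne'] using k

theorem dsc_trans (h : Dsc Ω Λ) (h' : Dsc Λ β) : Dsc Ω β := by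
  obtain ⟨ε, e, _, a⟩ := h
  obtain ⟨δ, d, b, c⟩ := h'
  refine ⟨ε * δ, mul_pos e d, ?_, ?_⟩
  · have w : Ω + (ε * δ) • β = Ω - ε • Λ + ε • (Λ + δ • β) := by module
    rw [w]
    exact smp_add a (smp_smul b e.le)
  · have w : Ω - (ε * δ) • β = Ω - ε • Λ + ε • (Λ - δ • β) := by module
    rw [w]
    exact smp_add a (smp_smul c e.le)

theorem mem_pic (hΛ : Smp Λ) : (Prn K).mkQ β ∈ Pic Λ ↔ Dsc Λ β := by
  have e : Pic Λ = (dS hΛ).map (Prn K).mkQ := by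
    rw [Pic, ← Submodule.map_span]
    exact congrArg _ (Submodule.span_eq (dS hΛ))
  rw [e]
  refine ⟨fun ⟨γ, a, b⟩ => ?_, fun h => ⟨β, h, rfl⟩⟩
  have k : β - γ ∈ Prn K := (Submodule.Quotient.eq _).1 b.symm
  simpa using dsc_add hΛ a (dsc_prn hΛ k)

theorem pic_eq (hΛ : Smp Λ) : Pic Λ = (dS hΛ).map (Prn K).mkQ := by
  rw [Pic, ← Submodule.map_span]
  exact congrArg _ (Submodule.span_eq (dS hΛ))

theorem ampOn_self (hΛ : Smp Λ) : AmpOn Λ Λ :=
  ⟨dsc_self hΛ, 1, one_pos, by simpa using smp_zero⟩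

theorem ampOn_smp (hΛ : Smp Λ) (h : AmpOn Λ A) : Smp A := by
  obtain ⟨_, ε, e, a⟩ := h
  simpa using smp_add a (smp_smul hΛ e.le)

theorem ampOn_add (hΛ : Smp Λ) (h : AmpOn Λ A) (hd : Dsc Λ β) (hs : Smp β) : AmpOn Λ (A + β) := by
  obtain ⟨d, ε, e, a⟩ := h
  refine ⟨dsc_add hΛ d hd, ε, e, ?_⟩
  rw [add_sub_right_comm]
  exact smp_add a hs

theorem ampOn_smul (hΛ : Smp Λ) (h : AmpOn Λ A) {c : ℝ} (hc : 0 < c) : AmpOn Λ (c • A) := by
  obtain ⟨d, ε, e, a⟩ := h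
  refine ⟨dsc_smul hΛ c d, c * ε, mul_pos hc e, ?_⟩
  rw [← smul_smul, ← smul_sub]
  exact smp_smul a hc.le

theorem ampOn_prn (hΛ : Smp Λ) (h : AmpOn Λ A) (hp : β ∈ Prn K) : AmpOn Λ (A + β) :=
  ampOn_add hΛ h (dsc_prn hΛ hp) (smp_prn hp)

/-- the ample cone is open -/
theorem ampOn_small (hΛ : Smp Λ) (h : AmpOn Λ A) (hd : Dsc Λ β) :
    ∃ ε : ℝ, 0 < ε ∧ ∀ c : ℝ, |c| ≤ ε → AmpOn Λ (A + c • β) := by
  obtain ⟨d, ε, e, a⟩ := h
  obtain ⟨δ, e', b⟩ := dsc_small hΛ hd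
  refine ⟨ε / 2 * δ, by positivity, fun c hc => ⟨dsc_add hΛ d (dsc_smul hΛ c hd), ε / 2,
    by positivity, ?_⟩⟩
  have w : A + c • β - (ε / 2) • Λ = A - ε • Λ + (ε / 2) • (Λ + (c / (ε / 2)) • β) := by
    rw [smul_add, smul_smul, mul_div_cancel₀ _ (by positivity)]
    module
  rw [w]
  refine smp_add a (smp_smul (b _ ?_) (by positivity))
  rw [abs_div, abs_of_pos (a := ε / 2) (by positivity), div_le_iff₀ (by positivity)]
  linarith

theorem ampOn_dsc (hΛ : Smp Λ) (h : AmpOn Λ A) : Dsc A Λ := by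
  obtain ⟨ε, e, a⟩ := ampOn_small hΛ h (dsc_self hΛ)
  exact dsc_of e fun c hc => ampOn_smp hΛ (a c hc)

/-- a semiample class has a free integral class with the same variety -/
theorem exists_mx (hΛ : Smp Λ) : ∃ s, AmpOn Λ (mx s) := by
  classical
  obtain ⟨l, h0, rfl⟩ := id hΛ
  obtain ⟨w, _, e⟩ := exists_mx_sum l.support id
  have hd : ∀ s ∈ l.support, Dsc (cmb l) (mx s) := fun s hs => by
    have p : 0 < l s := lt_of_le_of_ne (h0 s) (Finsupp.mem_support_iff.1 hs).symm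
    refine ⟨l s, p, smp_add hΛ (smp_smul (smp_mx s) p.le), l.erase s, fun u => ?_, ?_⟩
    · rw [Finsupp.erase_apply]
      split_ifs
      exacts [le_rfl, h0 u]
    · rw [cmb_eq, cmb_eq, sub_eq_iff_eq_add]
      conv_lhs => rw [← Finsupp.erase_add_single s l]
      simp
  refine ⟨w, e ▸ (dS hΛ).sum_mem hd, (∑ s ∈ l.support, l s + 1)⁻¹, ?_, ?_⟩
  · have : 0 ≤ ∑ s ∈ l.support, l s := Finset.sum_nonneg fun s _ => h0 s
    positivity
  · have p : 0 ≤ ∑ s ∈ l.support, l s := Finset.sum_nonneg fun s _ => h0 s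
    rw [e, cmb, Finsupp.sum, Finset.smul_sum, ← Finset.sum_sub_distrib]
    refine Finset.sum_induction _ Smp (fun _ _ => smp_add) smp_zero fun s hs => ?_
    have w : mx (id s) - (∑ s ∈ l.support, l s + 1)⁻¹ • l s • mx s =
        (1 - (∑ s ∈ l.support, l s + 1)⁻¹ * l s) • mx s := by
      rw [id, sub_smul, one_smul, mul_smul]
    rw [w]
    refine smp_smul (smp_mx s) (sub_nonneg.2 ?_)
    rw [inv_mul_le_iff₀ (by positivity)]
    linarith [Finset.single_le_sum (f := l) (fun s _ => h0 s) hs]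

/-! ### effective and big classes -/

theorem eff_of_nonneg (h : 0 ≤ β) : Eff β := ⟨β, h, by simp⟩

theorem eff_add (h : Eff β) (h' : Eff γ) : Eff (β + γ) := by
  obtain ⟨G, a, b⟩ := h
  obtain ⟨G', a', b'⟩ := h'
  exact ⟨G + G', add_nonneg a a', by rw [add_sub_add_comm]; exact add_mem b b'⟩

theorem eff_smul (h : Eff β) {c : ℝ} (hc : 0 ≤ c) : Eff (c • β) := by
  obtain ⟨G, a, b⟩ := h
  exact ⟨c • G, smul_nonneg hc a, by rw [← smul_sub]; exact (Prn K).smul_mem c b⟩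

theorem eff_prn (h : β ∈ Prn K) : Eff β := ⟨0, le_rfl, by simpa using h⟩

theorem eff_mx (s : Finset K) : Eff (mx s) := by
  obtain ⟨u, f, _, h, e⟩ := exists_one_mem s
  exact ⟨mx u, mx_nonneg h, by rw [e, add_sub_cancel_left]; exact Submodule.subset_span ⟨f, rfl⟩⟩

theorem eff_smp (h : Smp β) : Eff β := by
  obtain ⟨l, a, rfl⟩ := h
  exact Finset.sum_induction _ Eff (fun _ _ => eff_add) (eff_of_nonneg le_rfl) fun s _ =>
    eff_smul (eff_mx s) (a s)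

theorem big_add (h : Big β) (h' : Eff γ) : Big (β + γ) := fun s => by
  obtain ⟨ε, e, a⟩ := h s
  exact ⟨ε, e, by rw [add_sub_right_comm]; exact eff_add a h'⟩

theorem big_smul (h : Big β) {c : ℝ} (hc : 0 < c) : Big (c • β) := fun s => by
  obtain ⟨ε, e, a⟩ := h s
  exact ⟨c * ε, mul_pos hc e, by rw [← smul_smul, ← smul_sub]; exact eff_smul a hc.le⟩

theorem big_eff (h : Big β) : Eff β := by
  obtain ⟨ε, e, a⟩ := h ∅
  simpa using a

theorem big_of_dsc (h : Dsc Λ β) (hb : Big β) : Big Λ := by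
  obtain ⟨ε, e, _, a⟩ := h
  simpa using big_add (big_smul hb e) (eff_smp a)

theorem big_ampOn (hb : Big Λ) (h : AmpOn Λ A) : Big A := by
  obtain ⟨_, ε, e, a⟩ := h
  simpa using big_add (big_smul hb e) (eff_smp a)

end Vale.Agent.P287D.Gs
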