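import Vale.Agent.P287D.Gs.Bas
import Vale.Agent.P287D.Ge.St

/-!
# P287D: the model of a full point of the geography
-/

open Set

noncomputable section

namespace Vale.Agent.P287D.Gs

variable {K : Type} [Field K] [Algebra ℂ K] {n : ℕ} {Λ Ω A B D N N' β γ Z Z' G Γ : BD K}
  {P Q R : Pl K}

/-- the fixed part is affine at `D` in all directions of `V Ω` -/
def Full (Ω D N : BD K) : Prop := ∀ v, Dsc Ω v → ∃ (ε : ℝ) (N₁ N₂ : BD K), 0 < ε ∧
  ZD (D + ε • v) N₁ ∧ ZD (D - ε • v) N₂ ∧ N₁ + N₂ = (2 : ℝ) • N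

theorem dsc_cmb {l : Finset K →₀ ℝ} (h0 : 0 ≤ l) {s : Finset K} (hs : l s ≠ 0) :
    Dsc (cmb l) (mx s) := by
  classical
  have p : 0 < l s := lt_of_le_of_ne (h0 s) hs.symm
  refine ⟨l s, p, smp_add ⟨l, h0, rfl⟩ (smp_smul (smp_mx s) p.le), l.erase s, fun u => ?_, ?_⟩
  · rw [Finsupp.erase_apply]
    split_ifs
    exacts [le_rfl, h0 u]
  · rw [cmb_eq, cmb_eq, sub_eq_iff_eq_add]
    conv_lhs => rw [← Finsupp.erase_add_single s l]
    simp

/-- the Cartier divisors of `V Λ` are combinations of free ones -/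
theorem dsc_span (hΛ : Smp Λ) (h : Dsc Λ β) :
    ∃ l : Finset K →₀ ℝ, β = cmb l ∧ ∀ s, l s ≠ 0 → Dsc Λ (mx s) := by
  obtain ⟨ε, e, ⟨l, a, b⟩, l', a', b'⟩ := h
  have q : Λ = cmb ((1 / 2 : ℝ) • (l + l')) := by
    rw [cmb_eq, map_smul, map_add, ← cmb_eq, ← cmb_eq, ← b, ← b']
    module
  refine ⟨(2 * ε)⁻¹ • (l - l'), ?_, fun s hs => ?_⟩
  · rw [cmb_eq, map_smul, map_sub, ← cmb_eq, ← cmb_eq, ← b, ← b', add_sub_sub_cancel, ← add_smul,
      smul_smul, ← two_mul, inv_mul_cancel₀ (by positivity), one_smul]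
  · have _ := hΛ
    rw [q]
    refine dsc_cmb (fun u => mul_nonneg (by norm_num) (add_nonneg (a u) (a' u))) fun h0 => hs ?_
    have x : (0 : ℝ) ≤ l s := a s
    have y : (0 : ℝ) ≤ l' s := a' s
    have z : (1 / 2 : ℝ) * (l s + l' s) = 0 := h0
    change (2 * ε)⁻¹ * (l s - l' s) = 0
    rw [show l s = 0 by linarith, show l' s = 0 by linarith]
    simp

theorem carQ_cmb (l : Finset K →₀ ℚ) : CarQ (l.sum fun s c => (c : ℝ) • mx s) := by
  refine ⟨∏ s ∈ l.support, (l s).den, Finset.prod_pos fun s _ => (l s).den_pos, ?_⟩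
  rw [Finsupp.sum, Finset.smul_sum]
  refine AddSubgroup.sum_mem _ fun s hs => ?_
  obtain ⟨k, hk⟩ := Finset.dvd_prod_of_mem (fun s => (l s).den) hs
  have e : (((l s).den * k : ℕ) : ℝ) • (l s : ℝ) • mx s = ((l s).num * k : ℤ) • mx s := by
    rw [smul_smul, ← Int.cast_smul_eq_zsmul ℝ]
    congr 1
    have := Rat.cast_def (K := ℝ) (l s)
    have d : ((l s).den : ℝ) ≠ 0 := Nat.cast_ne_zero.2 (l s).den_nz
    rw [this]
    push_cast
    field_simp
  rw [hk, e]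
  exact AddSubgroup.zsmul_mem _ (AddSubgroup.subset_closure (mem_range_self s)) _

theorem rep_prn (h : Rep D G) (hp : β ∈ Prn K) : Rep (D + β) G :=
  ⟨h.1, by rw [← sub_sub]; exact sub_mem h.2 hp⟩

theorem zd_prn (h : ZD D N) (hp : β ∈ Prn K) : ZD (D + β) N :=
  ⟨h.nn, by rw [add_sub_right_comm]; exact smp_add h.smp (smp_prn hp), fun G hG =>
    h.fix G (by simpa using rep_prn hG (neg_mem hp))⟩

theorem zd_smul (h : ZD D N) {c : ℝ} (hc : 0 < c) : ZD (c • D) (c • N) :=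
  ⟨smul_nonneg hc.le h.nn, by rw [← smul_sub]; exact smp_smul h.smp hc.le, fun G hG => by
    have k := h.fix (c⁻¹ • G) ⟨smul_nonneg (by positivity) hG.1, by
      simpa [smul_sub, smul_smul, hc.ne'] using (Prn K).smul_mem c⁻¹ hG.2⟩
    simpa [smul_smul, hc.ne'] using smul_le_smul_of_nonneg_left k hc.le⟩

theorem zd_eff (h : ZD D N) : Eff D := by
  simpa using eff_add (eff_smp h.smp) (eff_of_nonneg h.nn)

section rows

variable (hN : NEG) (hK : FF K (n + 1))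
include hN hK

theorem det (hΛ : Smp Λ) (hb : Big Λ) (h : Dsc Λ β) (h0 : ∀ P, On n Λ P → 0 ≤ β P) : 0 ≤ β :=
  (hN.nn n K hK Λ β hΛ hb h h0).1

theorem det_eq (hΛ : Smp Λ) (hb : Big Λ) (h : Dsc Λ β) (h' : Dsc Λ γ)
    (e : ∀ P, On n Λ P → β P = γ P) : β = γ :=
  le_antisymm (sub_nonneg.1 (det hN hK hΛ hb (dsc_sub hΛ h' h) fun P hP => by simp [e P hP]))
    (sub_nonneg.1 (det hN hK hΛ hb (dsc_sub hΛ h h') fun P hP => by simp [e P hP]))

theorem avoid (hΛ : Smp Λ) (P : Pl K) : ∃ G, Rep Λ G ∧ G P = 0 :=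
  let ⟨G, a, b⟩ := hN.avoid n K hK Λ {P} hΛ (finite_singleton P)
  ⟨G, a, b P rfl⟩

/-- the hull of a semiample class is larger -/
theorem le_hull (hΛ : Smp Λ) (hb : Big Λ) (hA : Smp A) (h : Dsc Λ β)
    (e : ∀ P, On n Λ P → A P ≤ β P) : A ≤ β := fun P => by
  obtain ⟨G, a, b⟩ := avoid hN hK hA P
  have k := det hN hK hΛ hb (dsc_add hΛ h (dsc_prn hΛ a.2)) (fun Q hQ => by
    have x := e Q hQ
    have y : 0 ≤ G Q := a.1 Q
    change 0 ≤ β Q + (G Q - A Q)
    linarith) P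
  change 0 ≤ β P + (G P - A P) at k
  linarith

theorem zd_le (h : ZD D N) (h0 : 0 ≤ N') (hs : Smp (D - N')) : N ≤ N' := fun P => by
  obtain ⟨G, a, b⟩ := avoid hN hK hs P
  have k := h.fix (G + N') ⟨add_nonneg a.1 h0, by
    have e : G + N' - D = G - (D - N') := by abel
    rw [e]
    exact a.2⟩ P
  simpa [b] using k

theorem zd_uniq (h : ZD D N) (h' : ZD D N') : N = N' :=
  le_antisymm (zd_le hN hK h h'.nn h'.smp) (zd_le hN hK h' h.nn h.smp)

/-- sections vanish along the fixed part -/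
theorem zd_sub (h : ZD D N) (hA : Smp A) (hG : Rep (D - A) G) : N ≤ G := fun P => by
  obtain ⟨G', a, b⟩ := avoid hN hK hA P
  have k := h.fix (G + G') ⟨add_nonneg hG.1 a.1, by
    have e : G + G' - D = G - (D - A) + (G' - A) := by abel
    rw [e]
    exact add_mem hG.2 a.2⟩ P
  simpa [b] using k

theorem zd_big (h : ZD D N) (hb : Big D) : Big (D - N) := fun s => by
  obtain ⟨ε, e, G, a⟩ := hb s
  refine ⟨ε, e, G - N, sub_nonneg.2 (zd_sub hN hK h (smp_smul (smp_mx s) e.le) a), ?_⟩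
  have q : G - N - (D - N - ε • mx s) = G - (D - ε • mx s) := by abel
  rw [q]
  exact a.2

/-- a Cartier divisor with rational trace is rational -/
theorem carQ_of (hΛ : Smp Λ) (hb : Big Λ) (h : Dsc Λ β) (hq : ∀ P, On n Λ P → ∃ q : ℚ, β P = q) :
    CarQ β := by
  obtain ⟨l, rfl, hl⟩ := dsc_span hΛ h
  obtain ⟨π, hπ⟩ := (Algebra.linearMap ℚ ℝ).exists_leftInverse_of_injective
    (LinearMap.ker_eq_bot.2 (algebraMap ℚ ℝ).injective)
  have p : ∀ q : ℚ, π (q : ℝ) = q := fun q => LinearMap.congr_fun hπ q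
  have e : cmb l = (l.mapRange π (map_zero π)).sum fun s c => (c : ℝ) • mx s := by
    rw [Finsupp.sum_mapRange_index (by simp)]
    refine det_eq hN hK hΛ hb h ((dS hΛ).sum_mem fun s hs =>
      dsc_smul hΛ _ (hl s (Finsupp.mem_support_iff.1 hs))) fun P hP => ?_
    obtain ⟨q, hq⟩ := hq P hP
    have x : π (cmb l P) = ∑ s ∈ l.support, π (l s) * (P.mz s : ℚ) := by
      rw [cmb, Finsupp.sum, Finset.sum_apply, map_sum]
      refine Finset.sum_congr rfl fun s _ => ?_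
      have y : (l s • mx s) P = (P.mz s : ℚ) • l s := by
        simp [mx_apply, Rat.smul_def, mul_comm]
      rw [y, map_smul, smul_eq_mul, mul_comm]
    rw [hq, p] at x
    rw [hq, x, Finsupp.sum, Finset.sum_apply]
    simp [mx_apply]
  rw [e]
  exact carQ_cmb _

omit hN in
theorem isb_fin (hN : NEG) (hΛ : Smp Λ) (hb : Big Λ) (hZ : IsB n Z) :
    {P | On n Λ P ∧ Z P ≠ 0}.Finite := by
  obtain ⟨s, hs⟩ := exists_mx hΛ
  have e := (hN.iso n K hK Λ (mx s) hΛ (smp_mx s) hs).2.2.1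
  simpa only [e] using hZ s (big_ampOn hb hs)

/-- hulls exist on `ℚ`-factorial models -/
theorem exists_hull (hΛ : Smp Λ) (hq : QF n Λ) (hZ : {P | On n Λ P ∧ Z P ≠ 0}.Finite) :
    ∃ β, Hull n Λ Z β := by
  classical
  have _ := hN
  have _ := hK
  choose! v _ hv using hq
  refine ⟨∑ P ∈ hZ.toFinset, Z P • v P, (dS hΛ).sum_mem fun P hP =>
    dsc_smul hΛ _ (hv P (hZ.mem_toFinset.1 hP).1).1, fun Q hQ => ?_⟩
  rw [Finset.sum_apply, Finset.sum_eq_single Q]
  · simp [(hv Q hQ).2 Q hQ, Pl.δ_self]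
  · intro P hP h
    simp [(hv P (hZ.mem_toFinset.1 hP).1).2 Q hQ, Pl.δ_ne h.symm]
  · intro h
    have : Z Q = 0 := by simpa [hQ] using h
    simp [this]

variable (hM : MOD) (hS : SEP)
include hM hS

/-- the primes of the model are primes of `V Ω` outside the fixed part -/
theorem on_zd (hΩ : Smp Ω) (hb : Big Ω) (hD : Dsc Ω D) (h : ZD D N) (hP : Big (D - N))
    (hR : On n (D - N) R) : On n Ω R ∧ N R = 0 := by
  classical
  by_contra hc
  have hf := isb_fin hK hN hΩ hb ((hM.isb n K hK).1 _ (prn_car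
    (Submodule.subset_span ⟨R.t⁻¹, rfl⟩ : dv R.t⁻¹ ∈ Prn K)))
  have hsep : ∀ Q, ∃ G, Rep (D - N) G ∧ G R = 0 ∧ (Q ≠ R → 0 < G Q) := fun Q => by
    by_cases e : Q = R
    · obtain ⟨G, a, b⟩ := avoid hN hK h.smp R
      exact ⟨G, a, b, fun x => absurd e x⟩
    · have k : ¬ CLe (D - N) R Q := fun k => e (hS n K hK _ R Q h.smp hP hR k)
      simp only [CLe, not_forall] at k
      obtain ⟨G, a, b, c⟩ := k
      exact ⟨G, a, le_antisymm (not_lt.1 c) (a.1 R), fun _ => b⟩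
  choose G hG using hsep
  set T := insert R hf.toFinset
  have tc : (0 : ℝ) < T.card := Nat.cast_pos.2 (Finset.card_pos.2 ⟨R, Finset.mem_insert_self _ _⟩)
  set G' : BD K := (T.card : ℝ)⁻¹ • ∑ Q ∈ T, G Q with hG'
  have g0 : 0 ≤ G' := smul_nonneg (by positivity) (Finset.sum_nonneg fun Q _ => (hG Q).1.1)
  have gp : G' - (D - N) ∈ Prn K := by
    have e : G' - (D - N) = (T.card : ℝ)⁻¹ • ∑ Q ∈ T, (G Q - (D - N)) := by
      rw [Finset.sum_sub_distrib, Finset.sum_const, smul_sub, ← Nat.cast_smul_eq_nsmul ℝ, smul_smul,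
        inv_mul_cancel₀ tc.ne', one_smul]
    rw [e]
    exact Submodule.smul_mem _ _ (Submodule.sum_mem _ fun Q _ => (hG Q).1.2)
  have gR : G' R = 0 := by simp [hG', Finset.sum_apply, fun Q => (hG Q).2.1]
  have gT : ∀ Q ∈ T, On n Ω Q → 0 < (N + G') Q := fun Q hQ ho => by
    have n0 : 0 ≤ N Q := h.nn Q
    by_cases e : Q = R
    · subst e
      have : N Q ≠ 0 := fun x => hc ⟨ho, x⟩
      simpa [gR] using lt_of_le_of_ne n0 this.symm
    · have x : G Q Q ≤ ∑ P ∈ T, G P Q := Finset.single_le_sum (f := fun P => G P Q)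
        (fun P _ => (hG P).1.1 Q) hQ
      have y := (hG Q).2.2 e
      have z : 0 < G' Q := by
        rw [hG', Pi.smul_apply, Finset.sum_apply]
        exact mul_pos (by positivity) (by linarith)
      exact add_pos_of_nonneg_of_pos n0 z
  have ev : ∀ᶠ ε : ℝ in nhdsWithin 0 (Ioi 0), ∀ Q ∈ T, On n Ω Q →
      0 < (N + G') Q + ε * dv R.t⁻¹ Q := by
    refine (Filter.eventually_all_finset T).2 fun Q hQ => ?_
    by_cases ho : On n Ω Q
    · have c : ContinuousAt (fun ε : ℝ => (N + G') Q + ε * dv R.t⁻¹ Q) 0 := by fun_prop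
      exact (c.eventually (lt_mem_nhds (by simpa using gT Q hQ ho))).filter_mono
        nhdsWithin_le_nhds |>.mono fun _ x _ => x
    · exact .of_forall fun _ x => absurd x ho
  obtain ⟨ε, h1, h2⟩ := (ev.and self_mem_nhdsWithin).exists
  have pr : N + G' + ε • dv R.t⁻¹ - D ∈ Prn K := by
    have e : N + G' + ε • dv R.t⁻¹ - D = G' - (D - N) + ε • dv R.t⁻¹ := by abel
    rw [e]
    exact add_mem gp (Submodule.smul_mem _ _ (Submodule.subset_span ⟨_, rfl⟩))
  have k := h.fix _ ⟨det hN hK hΩ hb (by simpa using dsc_add hΩ hD (dsc_prn hΩ pr)) fun Q hQ => by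
    by_cases e : Q ∈ T
    · exact (h1 Q e hQ).le
    · have z : dv R.t⁻¹ Q = 0 := by
        by_contra x
        exact e (Finset.mem_insert_of_mem (hf.mem_toFinset.2 ⟨hQ, x⟩))
      simpa [z] using add_nonneg (h.nn Q) (g0 Q), pr⟩ R
  have w : dv R.t⁻¹ R = -1 := by simp [dv_apply, Pl.ord_t]
  have e : (0 : ℝ) < ε := h2
  simp only [Pi.add_apply, Pi.smul_apply, smul_eq_mul, w, gR] at k
  linarith

omit hM hS in
theorem Full.big (hΩ : Smp Ω) (hb : Big Ω) (h : ZD D N) (hF : Full Ω D N) : Big (D - N) := by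
  obtain ⟨ε, _, _, e, _, b, _⟩ := hF Ω (dsc_self hΩ)
  exact zd_big hN hK h (by simpa using big_add (big_smul hb e) (zd_eff b))

omit hN hK hM hS in
/-- every Cartier divisor of `V Ω` has a push forward which is Cartier -/
theorem Full.push (hF : Full Ω D N) (hv : Dsc Ω β) :
    ∃ γ, Dsc (D - N) γ ∧ ∀ P, N P = 0 → γ P = β P := by
  obtain ⟨ε, N₁, N₂, e, a, b, c⟩ := hF β hv
  refine ⟨β - ε⁻¹ • (N₁ - N), ⟨ε, e, ?_, ?_⟩, fun P hP => ?_⟩
  · have q : D - N + ε • (β - ε⁻¹ • (N₁ - N)) = D + ε • β - N₁ := by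
      rw [smul_sub, smul_smul, mul_inv_cancel₀ e.ne', one_smul]
      abel
    rw [q]
    exact a.smp
  · have q : D - N - ε • (β - ε⁻¹ • (N₁ - N)) = D - ε • β - N₂ := by
      rw [smul_sub, smul_smul, mul_inv_cancel₀ e.ne', one_smul, eq_sub_of_add_eq' c]
      module
    rw [q]
    exact b.smp
  · have x : N₁ P + N₂ P = 2 * N P := congrFun c P
    have y : 0 ≤ N₁ P := a.nn P
    have z : 0 ≤ N₂ P := b.nn P
    simp [hP, show N₁ P = 0 by linarith]

/-- **FULL (primes)** -/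
theorem Full.on (hΩ : Smp Ω) (hb : Big Ω) (hq : QF n Ω) (hD : Dsc Ω D) (h : ZD D N)
    (hF : Full Ω D N) (P : Pl K) : On n (D - N) P ↔ On n Ω P ∧ N P = 0 := by
  have hB := hF.big hN hK hΩ hb h
  refine ⟨on_zd hN hK hM hS hΩ hb hD h hB, fun ⟨a, b⟩ => by_contra fun c => ?_⟩
  obtain ⟨v, _, hv⟩ := hq P a
  obtain ⟨γ, d, e⟩ := hF.push hv.1
  have k := det_eq hN hK h.smp hB d (dsc_zero h.smp) fun Q hQ => by
    obtain ⟨x, y⟩ := on_zd hN hK hM hS hΩ hb hD h hB hQ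
    rw [e Q y, hv.2 Q x, Pl.δ_ne fun z : Q = P => c (z ▸ hQ)]
    rfl
  have w := e P b
  rw [k, hv.2 P a, Pl.δ_self] at w
  exact zero_ne_one w

/-- **FULL (`ℚ`-factorial)** -/
theorem Full.qf (hΩ : Smp Ω) (hb : Big Ω) (hq : QF n Ω) (hD : Dsc Ω D) (h : ZD D N)
    (hF : Full Ω D N) : QF n (D - N) := fun P hP => by
  have hB := hF.big hN hK hΩ hb h
  have o := fun Q hQ => on_zd (R := Q) hN hK hM hS hΩ hb hD h hB hQ
  obtain ⟨v, _, hv⟩ := hq P (o P hP).1
  obtain ⟨γ, d, e⟩ := hF.push hv.1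
  have w : ∀ Q, On n (D - N) Q → γ Q = P.δ Q := fun Q hQ => by
    rw [e Q (o Q hQ).2, hv.2 Q (o Q hQ).1]
  refine ⟨γ, carQ_of hN hK h.smp hB d fun Q hQ => ?_, d, w⟩
  rw [w Q hQ]
  by_cases x : Q = P
  · exact ⟨1, by simp [x, Pl.δ_self]⟩
  · exact ⟨0, by simp [Pl.δ_ne x]⟩

/-- **FULL (terminal)** -/
theorem Full.term (ht : Term n Ω Γ) (hq : QF n Ω) {c : ℝ} (hc : 0 < c) (hA : Smp A) (hd : Dsc Ω A)
    (hD : D - c • (Γ + A) ∈ Prn K) (h : ZD D N) (hF : Full Ω D N) :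
    ∃ Γ' A', Term n (D - N) Γ' ∧ Hull n (D - N) A A' ∧ A ≤ A' ∧ D - N - c • (Γ' + A') ∈ Prn K ∧
      D - N - c • (Γ' + A') = D - c • (Γ + A) := by
  have hΩ := ht.smp
  have dD : Dsc Ω D := by
    simpa using dsc_add hΩ (dsc_prn hΩ hD) (dsc_smul hΩ c (dsc_add hΩ ht.hull.1 hd))
  have hB := hF.big hN hK hΩ ht.big h
  have o := hF.on hN hK hM hS hΩ ht.big hq dD h
  obtain ⟨Γ', a, b⟩ := hF.push ht.hull.1
  obtain ⟨A', a', b'⟩ := hF.push hd
  have l := le_hull hN hK h.smp hB hA a' fun P hP => (b' P ((o P).1 hP).2).ge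
  have e : D - N - c • (Γ' + A') = D - c • (Γ + A) :=
    det_eq hN hK h.smp hB (dsc_sub h.smp (dsc_self h.smp) (dsc_smul h.smp c (dsc_add h.smp a a')))
      (dsc_prn h.smp hD) fun P hP => by
        have z := ((o P).1 hP).2
        simp [z, b P z, b' P z]
  refine ⟨Γ', A', ⟨h.smp, hB, ⟨a, fun P hP => ?_⟩, fun P hP => ?_⟩,
    ⟨a', fun P hP => b' P ((o P).1 hP).2⟩, l, e ▸ hD, e⟩
  · rw [b P ((o P).1 hP).2, ht.hull.2 P ((o P).1 hP).1]
  · have x := congrFun e P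
    have y := l P
    have z : 0 ≤ N P := h.nn P
    simp only [Pi.sub_apply, Pi.smul_apply, Pi.add_apply, smul_eq_mul] at x
    change 0 < cn K (n + 1) P - Γ' P
    by_cases u : On n Ω P
    · have v : 0 < N P := lt_of_le_of_ne z fun w => hP ((o P).2 ⟨u, w.symm⟩)
      rw [← ht.hull.2 P u]
      by_contra w
      nlinarith
    · have v : 0 < cn K (n + 1) P - Γ P := ht.pos P u
      by_contra w
      nlinarith

end rows

section cells

open P277Z.Gor

variable {ι : Type} [Fintype ι] {H : Finset (ι → ℤ)} {z : ι → ℝ}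

/-- `lc` is linear -/
def lcL (D : ι → BD K) : (ι → ℝ) →ₗ[ℝ] BD K := Fintype.linearCombination ℝ D

theorem lc_eq (D : ι → BD K) (a : ι → ℝ) : lc D a = lcL D a := rfl

theorem cell_dir {a : ι → ℝ} (ha : a ∈ Fl H z) :
    ∃ ε : ℝ, 0 < ε ∧ z + ε • a ∈ cell H z ∧ z - ε • a ∈ cell H z := by
  have ev : ∀ᶠ ε : ℝ in nhds 0, z + ε • a ∈ cell H z := by
    refine (Filter.eventually_all_finset H).2 fun h hh => ?_
    have c : ContinuousAt (fun ε : ℝ => pr h z + ε * pr h a) 0 := by fun_prop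
    simp only [pr_add, pr_smul]
    rcases lt_trichotomy (pr h z) 0 with e | e | e
    · exact (c.eventually (gt_mem_nhds (by simpa using e))).mono fun _ x =>
        ⟨fun y => absurd e (not_lt.2 y), fun _ => x.le⟩
    · exact .of_forall fun _ => by simp [e, ha h hh e]
    · exact (c.eventually (lt_mem_nhds (by simpa using e))).mono fun _ x =>
        ⟨fun _ => x.le, fun y => absurd e (not_lt.2 y)⟩
  obtain ⟨ε, e, k⟩ := Metric.eventually_nhds_iff.1 ev
  refine ⟨ε / 2, by positivity, k ?_, ?_⟩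
  · rw [Real.dist_eq, sub_zero, abs_of_pos (by positivity)]
    linarith
  · rw [sub_eq_add_neg, ← neg_smul]
    refine k ?_
    rw [Real.dist_eq, sub_zero, abs_neg, abs_of_pos (by positivity)]
    linarith

theorem fl_top (h : Rk H z 0) : Fl H z = ⊤ :=
  Submodule.eq_top_of_finrank_eq (le_antisymm (Submodule.finrank_le _) (by simpa [Rk] using h))

theorem subsingleton_bd (hM : MOD) (hK : FF K (n + 1)) (hp : Ω ∈ Prn K) (hb : Big Ω) :
    Subsingleton (BD K) := by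
  classical
  refine ⟨fun _ _ => funext fun P => False.elim ?_⟩
  obtain ⟨ε, e, G, a, b⟩ := hb {1, P.t⁻¹}
  have x : 0 ≤ mx ({1, P.t⁻¹} : Finset K) := mx_nonneg (by simp)
  have k := hM.zero n K hK (G + ε • mx {1, P.t⁻¹}) (by
    have q : G + ε • mx {1, P.t⁻¹} = G - (Ω - ε • mx {1, P.t⁻¹}) + Ω := by abel
    rw [q]
    exact add_mem b hp) (add_nonneg a (smul_nonneg e.le x))
  have w := congrFun k P
  have y : 0 ≤ G P := a P
  rw [mx_one_pair] at w
  simp [dv_apply, Pl.ord_t] at w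
  linarith

end cells

/-- **FULL** -/
theorem full (h : GA) : FULL := fun n K _ _ hK ι _ Ω κ D H N c z hz ho hr => by
  obtain ⟨L, -, hL⟩ := c.zc.lin z hz
  have hΩ := c.term.smp
  have zd := c.zc.zd z hz
  have dD : ∀ a, Dsc Ω (lc D a) := fun a => (dS hΩ).sum_mem fun i _ => dsc_smul hΩ _ (by
    simpa using dsc_add hΩ (c.amp i).1 c.term.hull.1)
  have z0 := hL z (mem_cell_self H z)
  have dir : ∀ a, ∃ ε : ℝ, 0 < ε ∧ ZD (lc D z + ε • lc D a) (N z + ε • L a) ∧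
      ZD (lc D z - ε • lc D a) (N z - ε • L a) := fun a => by
    obtain ⟨ε, e, x, y⟩ := cell_dir (z := z) (a := a) (H := H) (fl_top hr ▸ Submodule.mem_top)
    have x' := c.zc.zd _ (c.zc.sub z hz x)
    have y' := c.zc.zd _ (c.zc.sub z hz y)
    rw [hL _ x, lc_eq, map_add, map_add, map_smul, map_smul, ← z0] at x'
    rw [hL _ y, lc_eq, map_sub, map_sub, map_smul, map_smul, ← z0] at y'
    exact ⟨ε, e, x', y'⟩
  have hF : Full Ω (lc D z) (N z) := fun v hv => by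
    obtain ⟨a, ha⟩ := c.onto v hv
    obtain ⟨ε, e, x, y⟩ := dir a
    refine ⟨ε, N z + ε • L a, N z - ε • L a, e, ?_, ?_, by module⟩
    · have k := zd_prn x ((Prn K).smul_mem ε ha)
      rwa [add_assoc, ← smul_add, add_sub_cancel] at k
    · have k := zd_prn y (neg_mem ((Prn K).smul_mem ε ha))
      rwa [← sub_eq_add_neg, sub_sub, ← smul_add, add_sub_cancel] at k
  have hB := hF.big h.neg hK hΩ c.term.big zd
  have on := hF.on h.neg hK h.mod h.sep hΩ c.term.big c.qf (dD z) zd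
  have des : ∀ a, Dsc (lc D z - N z) (lc D a - L a) := fun a => by
    obtain ⟨ε, e, x, y⟩ := dir a
    refine ⟨ε, e, ?_, ?_⟩
    · rw [smul_sub, sub_add_sub_comm]
      exact x.smp
    · rw [smul_sub, sub_sub_sub_comm]
      exact y.smp
  have l0 : ∀ a P, N z P = 0 → L a P = 0 := fun a P hP => by
    obtain ⟨ε, e, x, y⟩ := dir a
    have u : 0 ≤ N z P + ε * L a P := x.nn P
    have v : 0 ≤ N z P - ε * L a P := y.nn P
    rw [hP] at u v
    exact (mul_eq_zero.1 (show ε * L a P = 0 by linarith)).resolve_left e.ne'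
  obtain ⟨k, hk⟩ := c.onto κ c.term.hull.1
  have dk : Dsc (lc D z - N z) (κ - L k) := by
    simpa using dsc_add zd.smp (dsc_prn zd.smp hk) (des k)
  refine ⟨L, κ - L k, hL, ?_, hF.qf h.neg hK h.mod h.sep hΩ c.term.big c.qf (dD z) zd, on, des,
    fun β hβ => ?_, k, hk, rfl⟩
  · rcases isEmpty_or_nonempty ι with hι | hι
    · obtain ⟨a, ha⟩ := c.onto Ω (dsc_self hΩ)
      have := subsingleton_bd h.mod hK (by simpa [lc] using ha) c.term.big
      rw [Subsingleton.elim (lc D z - N z) Ω, Subsingleton.elim (κ - L k) κ]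
      exact c.term
    · have p : 0 < ∑ i, z i := Finset.sum_pos (fun i _ => ho i) Finset.univ_nonempty
      have e : lc D z - (∑ i, z i) • (κ + (∑ i, z i)⁻¹ • ∑ i, z i • (D i - κ)) = 0 := by
        rw [smul_add, smul_smul, mul_inv_cancel₀ p.ne', one_smul, lc, Finset.sum_smul,
          ← Finset.sum_add_distrib, sub_eq_zero]
        exact Finset.sum_congr rfl fun i _ => by module
      obtain ⟨Γ', -, t, -⟩ := hF.term h.neg hK h.mod h.sep c.term c.qf p
        (smp_smul (Finset.sum_induction _ Smp (fun _ _ => smp_add) smp_zero fun i _ =>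
          smp_smul (ampOn_smp hΩ (c.amp i)) (ho i).le) (inv_pos.2 p).le)
        (dsc_smul hΩ _ ((dS hΩ).sum_mem fun i _ => dsc_smul hΩ _ (c.amp i).1))
        (e ▸ zero_mem _) zd
      rwa [det_eq h.neg hK zd.smp hB dk t.hull.1 fun P hP => by
        rw [t.hull.2 P hP, Pi.sub_apply, l0 k P ((on P).1 hP).2, sub_zero,
          c.term.hull.2 P ((on P).1 hP).1]]
  · obtain ⟨v, hv⟩ := exists_hull h.neg hK hΩ c.qf (isb_fin hK h.neg hΩ c.term.big
      ((h.mod.isb n K hK).1 β (dsc_car zd.smp hβ)))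
    obtain ⟨a, ha⟩ := c.onto v hv.1
    refine ⟨a, ?_⟩
    rwa [det_eq h.neg hK zd.smp hB (dsc_sub zd.smp hβ (des a)) (dsc_prn zd.smp ha) fun P hP => by
      simp [l0 a P ((on P).1 hP).2, hv.2 P ((on P).1 hP).1]]

end Vale.Agent.P287D.Gs
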