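import Mathlib

/-!
# P287D: the abstract path along the boundary of the effective region
-/

set_option linter.unusedSectionVars false

open Set Filter Topology Module

noncomputable section

namespace Vale.Agent.P287D.Gs

variable {ι : Type} [Fintype ι]

/-- an open set is not covered by countably many proper subspaces -/
theorem avoidS {𝓕 : Set (Submodule ℝ (ι → ℝ))} (hc : 𝓕.Countable) {U : Set (ι → ℝ)}
    (hU : IsOpen U) (hne : U.Nonempty) : ∃ a ∈ U, ∀ F ∈ 𝓕, F ≠ ⊤ → a ∉ F := by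
  have hd : Dense (⋂ F ∈ {F ∈ 𝓕 | F ≠ ⊤}, ((F : Set (ι → ℝ))ᶜ)) := by
    refine dense_biInter_of_isOpen (fun F _ => ?_) (hc.mono fun F hF => hF.1) fun F hF => ?_
    · exact F.closed_of_finiteDimensional.isOpen_compl
    · rw [← interior_eq_empty_iff_dense_compl]
      by_contra h
      exact hF.2 (F.eq_top_of_nonempty_interior' (nonempty_iff_ne_empty.2 h))
  obtain ⟨a, ha, haU⟩ := hd.exists_mem_open hU hne
  exact ⟨a, haU, fun F hF hT => mem_iInter₂.1 ha F ⟨hF, hT⟩⟩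

/-- a line whose direction is in no proper member meets them in countably many points -/
theorem cnt_line {𝓕 : Set (Submodule ℝ (ι → ℝ))} (hc : 𝓕.Countable) (k x : ι → ℝ)
    (h : ∀ F ∈ 𝓕, F ≠ ⊤ → k ∉ F ∨ x ∉ F) :
    {c : ℝ | ∃ F ∈ 𝓕, F ≠ ⊤ ∧ k + c • x ∈ F}.Countable := by
  have : {c : ℝ | ∃ F ∈ 𝓕, F ≠ ⊤ ∧ k + c • x ∈ F} =
      ⋃ F ∈ 𝓕, {c : ℝ | F ≠ ⊤ ∧ k + c • x ∈ F} := by
    ext c
    simp only [mem_ofPred_eq, mem_iUnion, exists_prop]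
  rw [this]
  refine hc.biUnion fun F hF => Set.Subsingleton.countable fun c hc' d hd => ?_
  by_contra hne
  have h1 : (c - d) • x ∈ F := by
    have := F.sub_mem hc'.2 hd.2
    rwa [add_sub_add_left_eq_sub, ← sub_smul] at this
  have h2 : x ∈ F := (F.smul_mem_iff (sub_ne_zero.2 hne)).1 h1
  rcases h F hF hc'.1 with h3 | h3
  · exact h3 (by simpa using F.sub_mem hc'.2 (F.smul_mem c h2))
  · exact h3 h2

theorem fr_sup (F : Submodule ℝ (ι → ℝ)) (k : ι → ℝ) :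
    finrank ℝ ↥(F ⊔ ℝ ∙ k) ≤ finrank ℝ F + 1 := by
  have h1 := Submodule.finrank_add_le_finrank_add_finrank F (ℝ ∙ k)
  have h2 : finrank ℝ (ℝ ∙ k) ≤ 1 := by
    simpa using finrank_span_le_card (R := ℝ) ({k} : Set (ι → ℝ))
  omega

theorem ne_top_of_lt {F : Submodule ℝ (ι → ℝ)} (h : finrank ℝ F < Fintype.card ι) : F ≠ ⊤ := by
  rintro rfl
  simp at h

/-- the abstract geography: `Ω` the ample cone, `E` the effective region, `k` the canonical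
class, `M x` the directions of the stratum of `x`, `Fc x y` when `x` is in the closed cell of
`y` -/
structure Geo (Ω E : Set (ι → ℝ)) (k : ι → ℝ) (M : (ι → ℝ) → Submodule ℝ (ι → ℝ))
    (Fc : (ι → ℝ) → (ι → ℝ) → Prop) : Prop where
  op : IsOpen Ω
  add : ∀ x ∈ Ω, ∀ y ∈ Ω, x + y ∈ Ω
  smul : ∀ x ∈ Ω, ∀ c : ℝ, 0 < c → c • x ∈ Ω
  up : ∀ x ∈ Ω, x ∈ E → ∀ y ∈ Ω, x + y ∈ E
  cl : ∀ x ∈ Ω, (∀ t : ℝ, 1 < t → t • x ∈ E) → x ∈ E
  big : ∀ x ∈ Ω, ∃ t : ℝ, 0 < t ∧ t • x ∈ E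
  neg : ∀ x ∈ Ω, ∃ t : ℝ, 0 < t ∧ t • x ∉ E
  cnt : (M '' (Ω ∩ E)).Countable
  mem : ∀ x ∈ Ω, x ∈ E → k + x ∈ M x
  bd : ∀ x ∈ Ω, x ∈ E → M x = ⊤ → ∃ t : ℝ, 0 < t ∧ t < 1 ∧ t • x ∈ E
  star : ∀ x ∈ Ω, x ∈ E → ∀ᶠ z in 𝓝 x, z ∈ E → Fc x z

/-- boundary points -/
def Bd (Ω E : Set (ι → ℝ)) (x : ι → ℝ) : Prop :=
  x ∈ Ω ∧ x ∈ E ∧ ∀ t : ℝ, 0 < t → t < 1 → t • x ∉ E

/-- states: a full point and a boundary point of codimension one in its closed cell -/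
structure St (Ω E : Set (ι → ℝ)) (M : (ι → ℝ) → Submodule ℝ (ι → ℝ))
    (Fc : (ι → ℝ) → (ι → ℝ) → Prop) (p : (ι → ℝ) × (ι → ℝ)) : Prop where
  amp : p.1 ∈ Ω
  eff : p.1 ∈ E
  full : M p.1 = ⊤
  bd : Bd Ω E p.2
  one : finrank ℝ (M p.2) + 1 = Fintype.card ι
  fc : Fc p.2 p.1

/-- links -/
structure Lk (Ω E : Set (ι → ℝ)) (M : (ι → ℝ) → Submodule ℝ (ι → ℝ))
    (Fc : (ι → ℝ) → (ι → ℝ) → Prop) (p q : (ι → ℝ) × (ι → ℝ)) : Prop where
  l : St Ω E M Fc p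
  r : St Ω E M Fc q
  v : ∃ x, Bd Ω E x ∧ Fintype.card ι ≤ finrank ℝ (M x) + 2 ∧ Fc x p.1 ∧ Fc x p.2 ∧
    Fc x q.1 ∧ Fc x q.2

/-- the threshold -/
def tau (E : Set (ι → ℝ)) (a : ι → ℝ) : ℝ := sInf {t : ℝ | 0 < t ∧ t • a ∈ E}

variable {Ω E : Set (ι → ℝ)} {k : ι → ℝ} {M : (ι → ℝ) → Submodule ℝ (ι → ℝ)}
  {Fc : (ι → ℝ) → (ι → ℝ) → Prop}

namespace Geo

theorem rad (h : Geo Ω E k M Fc) {a : ι → ℝ} (ha : a ∈ Ω) {t u : ℝ} (ht : 0 < t)
    (hE : t • a ∈ E) (htu : t ≤ u) : u • a ∈ E := by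
  rcases htu.eq_or_lt with rfl | hlt
  · exact hE
  · have := h.up _ (h.smul a ha t ht) hE _ (h.smul a ha (u - t) (sub_pos.2 hlt))
    rwa [← add_smul, add_sub_cancel] at this

theorem tau_le (a : ι → ℝ) {t : ℝ} (ht : 0 < t) (hE : t • a ∈ E) : tau E a ≤ t :=
  csInf_le ⟨0, fun _ hx => hx.1.le⟩ ⟨ht, hE⟩

theorem tau_pos (h : Geo Ω E k M Fc) {a : ι → ℝ} (ha : a ∈ Ω) : 0 < tau E a := by
  obtain ⟨t, ht, hE⟩ := h.neg a ha
  refine ht.trans_le (le_csInf (h.big a ha) fun u hu => ?_)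
  by_contra hlt
  exact hE (h.rad ha hu.1 hu.2 (not_le.1 hlt).le)

theorem of_lt (h : Geo Ω E k M Fc) {a : ι → ℝ} (ha : a ∈ Ω) {t : ℝ} (ht : tau E a < t) :
    t • a ∈ E := by
  obtain ⟨u, hu, hut⟩ := exists_lt_of_csInf_lt (h.big a ha) ht
  exact h.rad ha hu.1 hu.2 hut.le

theorem bd_tau (h : Geo Ω E k M Fc) {a : ι → ℝ} (ha : a ∈ Ω) : Bd Ω E (tau E a • a) := by
  have hp := h.tau_pos ha
  refine ⟨h.smul a ha _ hp, h.cl _ (h.smul a ha _ hp) fun t ht => ?_, fun t h0 h1 hE => ?_⟩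
  · rw [smul_smul]
    exact h.of_lt ha (by nlinarith)
  · rw [smul_smul] at hE
    have := tau_le a (mul_pos h0 hp) hE
    nlinarith

theorem cont (h : Geo Ω E k M Fc) {a : ι → ℝ} (ha : a ∈ Ω) : ContinuousAt (tau E) a := by
  have hp := h.tau_pos ha
  refine tendsto_order.2 ⟨fun t ht => ?_, fun t ht => ?_⟩
  · rcases le_or_gt t 0 with h0 | h0
    · filter_upwards [h.op.mem_nhds ha] with b hb using h0.trans_lt (h.tau_pos hb)
    · obtain ⟨u, htu, hu⟩ := exists_between ht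
      obtain ⟨w, huw, hw⟩ := exists_between hu
      have hc : ContinuousAt (fun b : ι → ℝ => w • a - u • b) a := by fun_prop
      have hm : w • a - u • a ∈ Ω := by
        rw [← sub_smul]
        exact h.smul a ha _ (sub_pos.2 huw)
      filter_upwards [h.op.mem_nhds ha, hc.eventually (h.op.mem_nhds hm)] with b hb hb'
      by_contra hle
      have h1 := h.up _ (h.smul b hb u (h0.trans htu))
        (h.of_lt hb ((not_lt.1 hle).trans_lt htu)) _ hb'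
      rw [add_sub_cancel] at h1
      exact absurd (tau_le a (h0.trans (htu.trans huw)) h1) (not_le.2 hw)
  · obtain ⟨u, htu, hu⟩ := exists_between ht
    obtain ⟨w, huw, hw⟩ := exists_between hu
    have hc : ContinuousAt (fun b : ι → ℝ => w • b - u • a) a := by fun_prop
    have hm : w • a - u • a ∈ Ω := by
      rw [← sub_smul]
      exact h.smul a ha _ (sub_pos.2 huw)
    filter_upwards [hc.eventually (h.op.mem_nhds hm)] with b hb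
    have h1 := h.up _ (h.smul a ha u (hp.trans htu)) (h.of_lt ha htu) _ hb
    rw [add_sub_cancel] at h1
    exact (tau_le b (hp.trans (htu.trans huw)) h1).trans_lt hw

/-- generic rays -/
def Gd (Ω E : Set (ι → ℝ)) (k : ι → ℝ) (M : (ι → ℝ) → Submodule ℝ (ι → ℝ)) (a : ι → ℝ) : Prop :=
  ∀ F ∈ M '' (Ω ∩ E) ∪ (fun F => F ⊔ ℝ ∙ k) '' (M '' (Ω ∩ E)), F ≠ ⊤ → a ∉ F

theorem mem_sup (h : Geo Ω E k M Fc) {a : ι → ℝ} (ha : a ∈ Ω) :
    a ∈ M (tau E a • a) ⊔ ℝ ∙ k := by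
  have hb := h.bd_tau ha
  have h1 : k + tau E a • a - k ∈ M (tau E a • a) ⊔ ℝ ∙ k :=
    Submodule.sub_mem _ (Submodule.mem_sup_left (h.mem _ hb.1 hb.2.1))
      (Submodule.mem_sup_right (Submodule.mem_span_singleton_self k))
  rw [add_sub_cancel_left] at h1
  exact (Submodule.smul_mem_iff _ (h.tau_pos ha).ne').1 h1

theorem one (h : Geo Ω E k M Fc) {a : ι → ℝ} (ha : a ∈ Ω) (hg : Gd Ω E k M a) :
    finrank ℝ (M (tau E a • a)) + 1 = Fintype.card ι := by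
  have hb := h.bd_tau ha
  have h1 : M (tau E a • a) ⊔ ℝ ∙ k = ⊤ := by
    by_contra hne
    exact hg _ (Or.inr ⟨_, ⟨_, ⟨hb.1, hb.2.1⟩, rfl⟩, rfl⟩) hne (h.mem_sup ha)
  have h2 := fr_sup (M (tau E a • a)) k
  rw [h1] at h2
  have h3 : M (tau E a • a) ≠ ⊤ := fun hT => by
    obtain ⟨t, h0, ht, hE⟩ := h.bd _ hb.1 hb.2.1 hT
    exact hb.2.2 t h0 ht hE
  have h4 := Submodule.finrank_lt h3
  simp only [finrank_top, finrank_fintype_fun_eq_card] at h2 h4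
  omega

/-- states on a generic ray, as close to the boundary as one likes -/
theorem st (h : Geo Ω E k M Fc) {a : ι → ℝ} (ha : a ∈ Ω) (hg : Gd Ω E k M a)
    {U : Set (ι → ℝ)} (hU : U ∈ 𝓝 (tau E a • a)) :
    ∃ y ∈ U, St Ω E M Fc (y, tau E a • a) := by
  have hb := h.bd_tau ha
  have hp := h.tau_pos ha
  have hc := cnt_line h.cnt k a fun F hF hT => Or.inr (hg F (Or.inl hF) hT)
  have hco : ContinuousAt (fun c : ℝ => c • a) (tau E a) := by fun_prop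
  have he := hco.eventually (Filter.inter_mem hU (h.star _ hb.1 hb.2.1))
  obtain ⟨δ, hδ, hI⟩ := Metric.eventually_nhds_iff.1 he
  obtain ⟨c, hc1, hc2⟩ := (hc.dense_compl ℝ).exists_mem_open
    (isOpen_Ioo (a := tau E a) (b := tau E a + δ)) (nonempty_Ioo.2 (by linarith))
  have hd : dist c (tau E a) < δ := by
    rw [Real.dist_eq, abs_lt]
    constructor <;> linarith [hc2.1, hc2.2]
  have hE := h.of_lt ha hc2.1
  have hΩ := h.smul a ha c (hp.trans hc2.1)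
  refine ⟨c • a, (hI hd).1, hΩ, hE, ?_, hb, h.one ha hg, (hI hd).2 hE⟩
  by_contra hne
  exact hc1 ⟨_, ⟨_, ⟨hΩ, hE⟩, rfl⟩, hne, h.mem _ hΩ hE⟩

theorem lk_same (h : Geo Ω E k M Fc) {x y y' : ι → ℝ} (h1 : St Ω E M Fc (y, x))
    (h2 : St Ω E M Fc (y', x)) : Lk Ω E M Fc (y, x) (y', x) := by
  have hx : Fc x x := (h.star x h1.bd.1 h1.bd.2.1).self_of_nhds h1.bd.2.1
  have := h1.one
  exact ⟨h1, h2, x, h1.bd, by dsimp only at this; omega, h1.fc, hx, h2.fc, hx⟩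

/-- all states near a boundary point of codimension at most two are connected -/
theorem loc (h : Geo Ω E k M Fc) {a : ι → ℝ} (ha : a ∈ Ω)
    (h2 : Fintype.card ι ≤ finrank ℝ (M (tau E a • a)) + 2) :
    ∃ O ∈ 𝓝 a, O ⊆ Ω ∧ ∀ b ∈ O, ∀ b' ∈ O, Gd Ω E k M b → Gd Ω E k M b' → ∀ y y',
      St Ω E M Fc (y, tau E b • b) → St Ω E M Fc (y', tau E b' • b') →
      Relation.ReflTransGen (Lk Ω E M Fc) (y, tau E b • b) (y', tau E b' • b') := by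
  have hb := h.bd_tau ha
  have hco : ContinuousAt (fun b => tau E b • b) a := (h.cont ha).smul continuousAt_id
  have he := hco.eventually (h.star _ hb.1 hb.2.1).eventually_nhds
  refine ⟨_, Filter.inter_mem (h.op.mem_nhds ha) he, inter_subset_left,
    fun b hbO b' hbO' hg hg' y y' hy hy' => ?_⟩
  obtain ⟨z, hz, hs⟩ := h.st hbO.1 hg hbO.2
  obtain ⟨z', hz', hs'⟩ := h.st hbO'.1 hg' hbO'.2
  refine (Relation.ReflTransGen.single (h.lk_same hy hs)).trans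
    ((Relation.ReflTransGen.single ⟨hs, hs', _, hb, h2, hz hs.eff, ?_, hz' hs'.eff, ?_⟩).trans
      (Relation.ReflTransGen.single (h.lk_same hs' hy')))
  · exact Filter.Eventually.self_of_nhds hbO.2 hs.bd.2.1
  · exact Filter.Eventually.self_of_nhds hbO'.2 hs'.bd.2.1

/-- **the path** -/
theorem path (h : Geo Ω E k M Fc) {U₀ U₁ : Set (ι → ℝ)} (o₀ : IsOpen U₀) (o₁ : IsOpen U₁)
    (n₀ : U₀.Nonempty) (n₁ : U₁.Nonempty) (s₀ : U₀ ⊆ Ω) (s₁ : U₁ ⊆ Ω) :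
    ∃ p q, St Ω E M Fc p ∧ St Ω E M Fc q ∧ (∃ a ∈ U₀, ∃ t : ℝ, 0 < t ∧ p.2 = t • a) ∧
      (∃ a ∈ U₁, ∃ t : ℝ, 0 < t ∧ q.2 = t • a) ∧ Relation.ReflTransGen (Lk Ω E M Fc) p q := by
  have hc := h.cnt.union (h.cnt.image fun F => F ⊔ ℝ ∙ k)
  obtain ⟨a₀, ha₀, hg₀⟩ := avoidS hc o₀ n₀
  obtain ⟨a₁, ha₁, hg⟩ := avoidS (hc.union
    (h.cnt.image fun F => (F ⊔ ℝ ∙ k) ⊔ ℝ ∙ a₀)) o₁ n₁
  have hg₁ : Gd Ω E k M a₁ := fun F hF => hg F (Or.inl hF)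
  set A : ℝ → ι → ℝ := fun s => a₀ + s • (a₁ - a₀) with hA
  have hA0 : A 0 = a₀ := by simp [hA]
  have hA1 : A 1 = a₁ := by simp [hA]
  have hcA : Continuous A := by fun_prop
  have hΩ : ∀ s ∈ Icc (0 : ℝ) 1, A s ∈ Ω := by
    intro s hs
    rcases hs.1.eq_or_lt with rfl | h0
    · exact hA0 ▸ s₀ ha₀
    rcases hs.2.eq_or_lt with rfl | h1
    · exact hA1 ▸ s₁ ha₁
    have : A s = (1 - s) • a₀ + s • a₁ := by
      simp only [hA]
      module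
    rw [this]
    exact h.add _ (h.smul _ (s₀ ha₀) _ (sub_pos.2 h1)) _ (h.smul _ (s₁ ha₁) _ h0)
  have h2 : ∀ s, A s ∈ Ω → Fintype.card ι ≤ finrank ℝ (M (tau E (A s) • A s)) + 2 := by
    intro s hs
    by_contra hlt
    have hb := h.bd_tau hs
    have hm := h.mem_sup hs
    have f1 := fr_sup (M (tau E (A s) • A s)) k
    have f2 := fr_sup (M (tau E (A s) • A s) ⊔ ℝ ∙ k) a₀
    rcases eq_or_ne s 0 with rfl | hs0
    · exact hg₀ _ (Or.inr ⟨_, ⟨_, ⟨hb.1, hb.2.1⟩, rfl⟩, rfl⟩) (ne_top_of_lt (by dsimp only; omega))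
        (hA0 ▸ hm)
    · refine hg _ (Or.inr ⟨_, ⟨_, ⟨hb.1, hb.2.1⟩, rfl⟩, rfl⟩) (ne_top_of_lt (by dsimp only; omega)) ?_
      have e : s • a₁ = A s - (1 - s) • a₀ := by
        simp only [hA]
        module
      refine (Submodule.smul_mem_iff _ hs0).1 ?_
      rw [e]
      exact Submodule.sub_mem _ (Submodule.mem_sup_left hm)
        (Submodule.mem_sup_right (Submodule.smul_mem _ _ (Submodule.mem_span_singleton_self _)))
  have hd : Dense {s : ℝ | Gd Ω E k M (A s)} := by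
    refine Dense.mono (fun s hs F hF hT hm => ?_)
      ((cnt_line hc a₀ (a₁ - a₀) fun F hF hT => Or.inl (hg₀ F hF hT)).dense_compl ℝ)
    exact hs ⟨F, hF, hT, hm⟩
  let D : ℝ → (ι → ℝ) × (ι → ℝ) → Prop := fun s p => ∀ᶠ r in 𝓝 s, Gd Ω E k M (A r) → ∀ y,
    St Ω E M Fc (y, tau E (A r) • A r) →
      Relation.ReflTransGen (Lk Ω E M Fc) p (y, tau E (A r) • A r)
  have key : ∀ p, D 0 p → D 1 p := by
    refine isPreconnected_Icc.induction₂' (fun s s' => ∀ p, D s p → D s' p) (fun s hs => ?_)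
      (fun _ _ _ _ _ _ h1 h2 p hp => h2 p (h1 p hp)) (left_mem_Icc.2 zero_le_one)
      (right_mem_Icc.2 zero_le_one)
    obtain ⟨O, hO, hOΩ, hL⟩ := h.loc (hΩ s hs) (h2 s (hΩ s hs))
    have hs' : ∀ᶠ r in 𝓝 s, A r ∈ O := hcA.continuousAt.eventually hO
    have step : ∀ u w, (∀ᶠ r in 𝓝 u, A r ∈ O) → (∀ᶠ r in 𝓝 w, A r ∈ O) → ∀ p, D u p → D w p := by
      intro u w hu hw p hp
      obtain ⟨r, hr, hr1, hr2⟩ := hd.inter_nhds_nonempty (Filter.inter_mem hu hp)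
      obtain ⟨y, -, hy⟩ := h.st (hOΩ hr1) hr Filter.univ_mem
      filter_upwards [hw] with r' hr' hg' y' hy'
      exact (hr2 hr y hy).trans (hL _ hr1 _ hr' hr hg' y y' hy hy')
    filter_upwards [mem_nhdsWithin_of_mem_nhds hs'.eventually_nhds] with w hw
    exact ⟨step s w hs' hw, step w s hw hs'⟩
  obtain ⟨y₀, -, hy₀⟩ := h.st (s₀ ha₀) hg₀ Filter.univ_mem
  obtain ⟨y₁, -, hy₁⟩ := h.st (s₁ ha₁) hg₁ Filter.univ_mem
  refine ⟨_, _, hy₀, hy₁, ⟨a₀, ha₀, _, h.tau_pos (s₀ ha₀), rfl⟩,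
    ⟨a₁, ha₁, _, h.tau_pos (s₁ ha₁), rfl⟩, ?_⟩
  have h0 : D 0 (y₀, tau E a₀ • a₀) := by
    obtain ⟨O, hO, -, hL⟩ := h.loc (s₀ ha₀) (hA0 ▸ h2 0 (hA0 ▸ s₀ ha₀))
    have hs' : ∀ᶠ r in 𝓝 (0 : ℝ), A r ∈ O := hcA.continuousAt.eventually (hA0 ▸ hO)
    filter_upwards [hs'] with r hr hg' y hy
    exact hL _ (mem_of_mem_nhds hO) _ hr hg₀ hg' _ _ hy₀ hy
  have h1 := (key _ h0).self_of_nhds
  rw [hA1] at h1
  exact h1 hg₁ y₁ hy₁

end Geo

end Vale.Agent.P287D.Gs
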