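import Vale.Agent.P287D.Gs.Ful
import Vale.Agent.P287D.Va.Cone
import Vale.Agent.P287D.Ge.St2

/-!
# P287D: the common model and the two ends of the geography
-/

open Set Filter Topology

noncomputable section

namespace Vale.Agent.P287D.Gs

variable {K : Type} [Field K] [Algebra ℂ K] {n : ℕ} {Λ Ω κ β β' γ γ' Γ : BD K} {c d : ℝ}

/-- a Fano variety of Picard number one under `V Ω` -/
structure En (n : ℕ) (Ω Λ Γ : BD K) : Prop where
  smp : Smp Ω
  big : Big Ω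
  term : Term n Λ Γ
  amp : AmpOn Λ (-Γ)
  qf : QF n Λ
  rho : rho Λ = 1
  des : Dsc Ω Λ

/-- the push forward of `β` is `β'`, of degree `c` -/
def Pu (n : ℕ) (Λ Γ β β' : BD K) (c : ℝ) : Prop := Hull n Λ β β' ∧ β' + c • Γ ∈ Prn K

theorem Pu.add (hΛ : Smp Λ) (h : Pu n Λ Γ β β' c) (h' : Pu n Λ Γ γ γ' d) :
    Pu n Λ Γ (β + γ) (β' + γ') (c + d) :=
  ⟨⟨dsc_add hΛ h.1.1 h'.1.1, fun P hP => by simp [h.1.2 P hP, h'.1.2 P hP]⟩, by
    rw [add_smul, add_add_add_comm]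
    exact add_mem h.2 h'.2⟩

theorem Pu.smul (hΛ : Smp Λ) (h : Pu n Λ Γ β β' c) (d : ℝ) :
    Pu n Λ Γ (d • β) (d • β') (d * c) :=
  ⟨⟨dsc_smul hΛ d h.1.1, fun P hP => by simp [h.1.2 P hP]⟩, by
    rw [mul_smul, ← smul_add]
    exact (Prn K).smul_mem d h.2⟩

theorem Pu.lc {ι : Type} [Fintype ι] (hΛ : Smp Λ) {D D' : ι → BD K} {c : ι → ℝ}
    (h : ∀ i, Pu n Λ Γ (D i) (D' i) (c i)) (a : ι → ℝ) :
    Pu n Λ Γ (lc D a) (lc D' a) (Fintype.linearCombination ℝ c a) :=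
  ⟨⟨(dS hΛ).sum_mem fun i _ => dsc_smul hΛ _ (h i).1.1, fun P hP => by
    simp [P287D.lc, Finset.sum_apply, fun i => (h i).1.2 P hP]⟩, by
    rw [Fintype.linearCombination_apply, P287D.lc, Finset.sum_smul, ← Finset.sum_add_distrib]
    refine Submodule.sum_mem _ fun i _ => ?_
    rw [smul_assoc, ← smul_add]
    exact (Prn K).smul_mem _ (h i).2⟩

theorem small {E : Type} [NormedAddCommGroup E] [NormedSpace ℝ E] {U : Set E} {a : E}
    (hU : U ∈ 𝓝 a) (w : E) : ∃ t : ℝ, 0 < t ∧ a + t • w ∈ U := by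
  have c : ContinuousAt (fun t : ℝ => a + t • w) 0 := by fun_prop
  have e : ∀ᶠ t : ℝ in 𝓝 0, a + t • w ∈ U := c.eventually (by simpa using hU)
  obtain ⟨t, x, y⟩ := ((e.filter_mono (nhdsWithin_le_nhds (s := Ioi 0))).and
    self_mem_nhdsWithin).exists
  exact ⟨t, y, x⟩

theorem small_rat {p : ℝ → Prop} (h : ∀ᶠ t in 𝓝 (0 : ℝ), p t) : ∃ q : ℚ, 0 < (q : ℝ) ∧ p q := by
  obtain ⟨ε, e, k⟩ := Metric.eventually_nhds_iff.1 h
  obtain ⟨q, a, b⟩ := exists_rat_btwn e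
  exact ⟨q, a, k (by rwa [Real.dist_eq, sub_zero, abs_of_pos a])⟩

theorem isOpen_op (ι : Type) [Fintype ι] : IsOpen (Op ι) := by
  rw [Op, Set.ofPred_forall]
  exact isOpen_iInter_of_finite fun i => isOpen_lt continuous_const (continuous_apply i)

section rows

variable (hN : NEG) (hM : MOD) (hK : FF K (n + 1)) (e : En n Ω Λ Γ)
include hM hK e

theorem En.nb (h : β ∈ Prn K) : ¬ Big β := fun hb => by
  have := subsingleton_bd hM hK h hb
  have : Subsingleton (BD K ⧸ Prn K) := (Prn K).mkQ_surjective.subsingleton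
  have k := e.rho
  rw [P287D.rho, Module.finrank_zero_of_subsingleton] at k
  exact zero_ne_one k

include hN

theorem En.ex (h : β ∈ Car K) : ∃ β' c, Pu n Λ Γ β β' c := by
  have hΛ := e.term.smp
  obtain ⟨β', hβ⟩ := exists_hull hN hK hΛ e.qf
    (isb_fin hK hN hΛ e.term.big ((hM.isb n K hK).1 β h))
  have g : (⟨_, (mem_pic hΛ).2 e.amp.1⟩ : Pic Λ) ≠ 0 := fun x =>
    e.nb hM hK ((Submodule.Quotient.mk_eq_zero _).1 (congrArg Subtype.val x))
      (big_ampOn e.term.big e.amp)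
  obtain ⟨c, hc⟩ := (finrank_eq_one_iff_of_nonzero' _ g).1 e.rho ⟨_, (mem_pic hΛ).2 hβ.1⟩
  refine ⟨β', c, hβ, ?_⟩
  have k : (Prn K).mkQ (c • -Γ) = (Prn K).mkQ β' := by
    rw [map_smul]
    exact congrArg Subtype.val hc
  simpa using (Submodule.Quotient.eq _).1 k.symm

omit hM in
theorem En.rep (h : Pu n Λ Γ β β' c) {G : BD K} (hG : Rep β G) : Rep β' (G - (β - β')) := by
  have q : G - (β - β') = β' + (G - β) := by abel
  refine ⟨det hN hK e.term.smp e.term.big (q ▸ dsc_add e.term.smp h.1.1 (dsc_prn e.term.smp hG.2))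
    fun P hP => ?_, by simpa [q] using hG.2⟩
  simpa [h.1.2 P hP] using hG.1 P

theorem En.nonneg (h : Pu n Λ Γ β β' c) (hβ : Eff β) : 0 ≤ c := by
  obtain ⟨G, hG⟩ := hβ
  by_contra x
  refine e.nb hM hK h.2 ?_
  have k := big_add (big_smul (big_ampOn e.term.big e.amp) (neg_pos.2 (not_le.1 x)))
    ⟨_, e.rep hN hK h hG⟩
  simpa [add_comm] using k

theorem En.pos (h : Pu n Λ Γ β β' c) (hβ : Big β) : 0 < c := by
  obtain ⟨s, _, δ, d, a⟩ := exists_mx (ampOn_smp e.term.smp e.amp)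
  obtain ⟨ε, p, b⟩ := hβ s
  have k : Eff (β + (ε * δ) • Γ) := by
    have q : β + (ε * δ) • Γ = β - ε • mx s + ε • (mx s - δ • -Γ) := by module
    rw [q]
    exact eff_add b (eff_smul (eff_smp a) p.le)
  have g : Pu n Λ Γ Γ Γ (-1) := ⟨⟨e.term.hull.1, fun _ _ => rfl⟩, by simp⟩
  have := e.nonneg hN hM hK (h.add e.term.smp (g.smul e.term.smp _)) k
  nlinarith [mul_pos p d]

theorem En.uniq (h : Pu n Λ Γ β β' c) (h' : Pu n Λ Γ β γ' d) : β' = γ' ∧ c = d := by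
  have k := fun {β' γ' : BD K} {c d : ℝ} (h : Pu n Λ Γ β β' c) (h' : Pu n Λ Γ β γ' d) =>
    e.nonneg hN hM hK (h.add e.term.smp (h'.smul e.term.smp (-1)))
      (by simpa using eff_of_nonneg le_rfl)
  refine ⟨det_eq hN hK e.term.smp e.term.big h.1.1 h'.1.1 fun P hP => by
    rw [h.1.2 P hP, h'.1.2 P hP], ?_⟩
  linarith [k h h', k h' h]

omit hM in
theorem En.on (hM : MOD) (hS : SEP) {P : Pl K} (h : On n Λ P) : On n Ω P :=
  (on_zd hN hK hM hS (N := 0) e.smp e.big e.des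
    ⟨le_rfl, by simpa using e.term.smp, fun _ h => h.1⟩ (by simpa using e.term.big)
    (by simpa using h)).1

omit hM in
theorem En.kap (hM : MOD) (hS : SEP) (ht : Term n Ω κ) : Pu n Λ Γ κ Γ (-1) :=
  ⟨⟨e.term.hull.1, fun P hP => by
    rw [e.term.hull.2 P hP, ht.hull.2 P (e.on hN hK hM hS hP)]⟩, by simp⟩

/-- an ample class on `V Ω` at the end -/
theorem En.cls (hS : SEP) (hΩ : CarQ Ω) (ht : Term n Ω κ) : ∃ A, CarQ A ∧ AmpOn Ω A ∧
    Pu n Λ Γ (κ + A) 0 0 ∧ ∀ P, On n Ω P → ¬ On n Λ P → 0 < (κ + A) P := by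
  have hΛ := e.term.smp
  obtain ⟨Ω', c, h⟩ := e.ex hN hM hK (smp_car e.smp)
  obtain ⟨ε₀, p, k⟩ := ampOn_small hΛ e.amp h.1.1
  have f := hM.exc n K hK Ω Λ e.smp e.big hΛ e.term.big
  have e1 : ∀ᶠ t : ℝ in 𝓝 0, |-t| ≤ ε₀ :=
    (show ContinuousAt (fun t : ℝ => |-t|) 0 by fun_prop).eventually
      (ge_mem_nhds (by simpa using p))
  have e2 : ∀ᶠ t : ℝ in 𝓝 0, ∀ P ∈ {P | On n Ω P ∧ ¬ On n Λ P},
      0 < κ P + (-Γ P + -t * Ω' P + t * Ω P) := by
    refine (eventually_all_finite f).2 fun P hP => ?_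
    refine (show ContinuousAt (fun t : ℝ => κ P + (-Γ P + -t * Ω' P + t * Ω P)) 0 by
      fun_prop).eventually (lt_mem_nhds ?_)
    have x : 0 < cn K (n + 1) P - Γ P := e.term.pos P hP.2
    rw [← ht.hull.2 P hP.1] at x
    simpa using x
  obtain ⟨q, q0, q1, q2⟩ := small_rat (e1.and e2)
  have a := k _ q1
  have cΓ : CarQ Γ := carQ_of hN hK hΛ e.term.big e.term.hull.1 fun P hP => by
    obtain ⟨z, hz⟩ := (hM.isb n K hK).2.2 P
    exact ⟨z, by rw [e.term.hull.2 P hP, hz, Rat.cast_intCast]⟩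
  have cΩ : CarQ Ω' := carQ_of hN hK hΛ e.term.big h.1.1 fun P hP => h.1.2 P hP ▸ hΩ.rat P
  refine ⟨-Γ + -(q : ℝ) • Ω' + (q : ℝ) • Ω, (cΓ.neg.add (by simpa using cΩ.qsmul (-q))).add
    (hΩ.qsmul q), ⟨dsc_add e.smp (dsc_trans e.des a.1) (dsc_smul e.smp _ (dsc_self e.smp)), q, q0,
      by simpa using ampOn_smp hΛ a⟩, ⟨⟨dsc_zero hΛ, fun P hP => ?_⟩, by simp⟩,
    fun P x y => q2 P ⟨x, y⟩⟩
  simp [h.1.2 P hP, (e.kap hN hK hM hS ht).1.2 P hP]

variable {ι : Type} [Fintype ι] {D D' : ι → BD K} {c : ι → ℝ} {H : Finset (ι → ℤ)}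
  {N : (ι → ℝ) → BD K}

omit hN hM hK e in
/-- the points at which the fixed part has the full exceptional support -/
def Gd (n : ℕ) (Ω Λ : BD K) (D D' : ι → BD K) : Set (ι → ℝ) :=
  {a | ∀ P, On n Ω P → ¬ On n Λ P → 0 < (lc D a - lc D' a) P}

omit hN in
theorem En.gd_open : IsOpen (Gd n Ω Λ D D') := by
  have f := hM.exc n K hK Ω Λ e.smp e.big e.term.smp e.term.big
  have q : Gd n Ω Λ D D' = ⋂ P ∈ {P | On n Ω P ∧ ¬ On n Λ P},
      {a | 0 < (lc D a - lc D' a) P} := by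
    ext a
    simp [Gd]
  rw [q]
  refine f.isOpen_biInter fun P _ => isOpen_lt continuous_const ?_
  simp only [lc, Pi.sub_apply, Finset.sum_apply, Pi.smul_apply, smul_eq_mul]
  fun_prop

omit hM in
theorem En.zd (hD : ∀ i, Dsc Ω (D i)) (h : ∀ i, Pu n Λ Γ (D i) (D' i) (c i)) {a : ι → ℝ}
    (ha : a ∈ Gd n Ω Λ D D') (h0 : 0 ≤ Fintype.linearCombination ℝ c a) :
    ZD (lc D a) (lc D a - lc D' a) := by
  have p := Pu.lc e.term.smp h a
  refine ⟨det hN hK e.smp e.big (dsc_sub e.smp ((dS e.smp).sum_mem fun i _ =>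
    dsc_smul e.smp _ (hD i)) (dsc_trans e.des p.1.1)) fun P hP => ?_, ?_, fun G hG =>
      sub_nonneg.1 (e.rep hN hK p hG).1⟩
  · by_cases x : On n Λ P
    · simp [p.1.2 P x]
    · exact (ha P hP x).le
  · simpa using smp_add (smp_prn p.2) (smp_smul (ampOn_smp e.term.smp e.amp) h0)

theorem En.int (hD : ∀ i, Dsc Ω (D i)) (h : ∀ i, Pu n Λ Γ (D i) (D' i) (c i)) {a : ι → ℝ}
    (ha : a ∈ Gd n Ω Λ D D') (ho : a ∈ Op ι) (h0 : 0 < Fintype.linearCombination ℝ c a) :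
    a ∈ interior (Ec D) := by
  have o : IsOpen {a | 0 < Fintype.linearCombination ℝ c a} :=
    isOpen_lt continuous_const (LinearMap.continuous_of_finiteDimensional _)
  exact interior_maximal (t := Gd n Ω Λ D D' ∩ Op ι ∩ {a | 0 < Fintype.linearCombination ℝ c a})
    (fun b hb => And.intro (fun i => (hb.1.2 i).le) (zd_eff (e.zd hN hK hD h hb.1.1 hb.2.le)))
    (((e.gd_open hM hK).inter (isOpen_op ι)).inter o) ⟨⟨ha, ho⟩, h0⟩

theorem En.clo (h : ∀ i, Pu n Λ Γ (D i) (D' i) (c i)) {a : ι → ℝ} (ha : a ∈ closure (Ec D)) :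
    0 ≤ Fintype.linearCombination ℝ c a :=
  closure_minimal (t := {a | 0 ≤ Fintype.linearCombination ℝ c a})
    (fun b hb => e.nonneg hN hM hK (Pu.lc e.term.smp h b) hb.2)
    (isClosed_le continuous_const (LinearMap.continuous_of_finiteDimensional _)) ha

/-- the geography near the end -/
theorem En.near (hS : SEP) (hD : ∀ i, Dsc Ω (D i)) (h : ∀ i, Pu n Λ Γ (D i) (D' i) (c i))
    (hz : Zc D H N) {x : ι → ℝ} (hx : x ∈ Gd n Ω Λ D D') (ho : x ∈ Op ι) :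
    ∀ᶠ y in 𝓝 x, y ∈ frontier (Ec D) →
      lc D y - N y ∈ Prn K ∧ ∀ P, On n Λ P ↔ On n Ω P ∧ N y P = 0 := by
  filter_upwards [(e.gd_open hM hK).mem_nhds hx, (isOpen_op ι).mem_nhds ho] with y a b f
  have c0 : Fintype.linearCombination ℝ c y = 0 :=
    le_antisymm (not_lt.1 fun x => f.2 (e.int hN hM hK hD h a b x)) (e.clo hN hM hK h f.1)
  have z := e.zd hN hK hD h a c0.ge
  have p := Pu.lc e.term.smp h y
  rw [zd_uniq hN hK (hz.zd y ⟨fun i => (b i).le, zd_eff z⟩) z]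
  refine ⟨by simpa [c0] using p.2, fun P => ⟨fun x => ⟨e.on hN hK hM hS x, by
    simp [p.1.2 P x]⟩, fun x => by_contra fun w => (a P x.1 w).ne' x.2⟩⟩

/-- the points at the end -/
theorem En.see [DecidableEq ι] (hD : ∀ i, Dsc Ω (D i)) (h : ∀ i, Pu n Λ Γ (D i) (D' i) (c i))
    {i j k : ι} (hi : Pi.single i 1 ∈ Gd n Ω Λ D D') (ci : c i = 0) (cj : c j < 0) (ck : 0 < c k)
    {p : ι → ℝ} (hp : Fintype.linearCombination ℝ c p < 0) :
    ∃ q x, x ∈ Gd n Ω Λ D D' ∧ x ∈ Op ι ∧ (q ∈ Op ι ∧ q ∈ interior (Ec D)) ∧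
      x ∈ segment ℝ p q ∧ x ∈ frontier (Ec D) := by
  set l := Fintype.linearCombination ℝ c with hl
  have s : ∀ i, l (Pi.single i 1) = c i := fun i => by simp [hl]
  have n1 : ∀ i j : ι, (0 : ℝ) ≤ (Pi.single i 1 : ι → ℝ) j := fun i j => by
    rw [Pi.single_apply]
    split_ifs <;> simp
  obtain ⟨w, hw, w0⟩ : ∃ w ∈ Op ι, l w = 0 := by
    rcases le_total 0 (l 1) with x | x
    · refine ⟨1 + (l 1 / -c j) • Pi.single j 1, fun m => add_pos_of_pos_of_nonneg one_pos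
        (mul_nonneg (div_nonneg x (neg_pos.2 cj).le) (n1 j m)), ?_⟩
      rw [map_add, map_smul, s, smul_eq_mul]
      field_simp [cj.ne]
      ring
    · refine ⟨1 + (-l 1 / c k) • Pi.single k 1, fun m => add_pos_of_pos_of_nonneg one_pos
        (mul_nonneg (div_nonneg (neg_nonneg.2 x) ck.le) (n1 k m)), ?_⟩
      rw [map_add, map_smul, s, smul_eq_mul]
      field_simp
      ring
  have o := e.gd_open hM hK (D := D) (D' := D')
  obtain ⟨η, e0, e1⟩ := small (o.mem_nhds hi) w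
  set x := Pi.single i 1 + η • w with hx
  have xo : x ∈ Op ι := fun m => add_pos_of_nonneg_of_pos (n1 i m) (mul_pos e0 (hw m))
  have x0 : l x = 0 := by rw [hx, map_add, map_smul, s, ci, w0, smul_zero, add_zero]
  obtain ⟨t, t0, t1⟩ := small ((o.inter (isOpen_op ι)).mem_nhds ⟨e1, xo⟩) (x - p)
  refine ⟨x + t • (x - p), x, e1, xo, ⟨t1.2, e.int hN hM hK hD h t1.1 t1.2 ?_⟩,
    ⟨t / (1 + t), 1 / (1 + t), by positivity, by positivity, by field_simp; ring, ?_⟩,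
    subset_closure ⟨fun m => (xo m).le, zd_eff (e.zd hN hK hD h e1 x0.ge)⟩, fun y => ?_⟩
  · rw [← hl, map_add, map_smul, map_sub, x0, smul_eq_mul]
    nlinarith
  · funext m
    simp only [Pi.add_apply, Pi.smul_apply, Pi.sub_apply, smul_eq_mul]
    field_simp
    ring
  · obtain ⟨r, r0, r1⟩ := small (isOpen_interior.mem_nhds y) (p - x)
    have z := e.clo hN hM hK h (subset_closure (interior_subset r1))
    rw [← hl, map_add, map_smul, map_sub, x0, smul_eq_mul] at z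
    nlinarith

end rows

theorem exists_span (hΩ : Smp Ω) [Module.Finite ℝ (Pic Ω)] : ∃ (T : Type) (_ : Fintype T)
    (s : T → Finset K), (∀ t, Dsc Ω (mx (s t))) ∧
      ∀ β, Dsc Ω β → ∃ a, β - lc (fun t => mx (s t)) a ∈ Prn K := by
  have e : Pic Ω = Submodule.span ℝ ((Prn K).mkQ '' (mx '' {s | Dsc Ω (mx s)})) := by
    refine le_antisymm (Submodule.span_le.2 ?_) (Submodule.span_mono (image_mono ?_))
    · rintro _ ⟨β, hβ, rfl⟩
      obtain ⟨l, rfl, hl⟩ := dsc_span hΩ hβ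
      rw [cmb, Finsupp.sum, map_sum]
      refine Submodule.sum_mem _ fun s hs => ?_
      rw [map_smul]
      exact Submodule.smul_mem _ _ (Submodule.subset_span
        ⟨_, ⟨s, hl s (Finsupp.mem_support_iff.1 hs), rfl⟩, rfl⟩)
    · rintro _ ⟨s, hs, rfl⟩
      exact hs
  have f : (Pic Ω).FG := Module.Finite.iff_fg.1 inferInstance
  rw [e] at f
  obtain ⟨T, hT, q⟩ := (Submodule.fg_span_iff_fg_span_finset_subset _).1 f
  have c : ∀ t : T, ∃ s, Dsc Ω (mx s) ∧ (Prn K).mkQ (mx s) = t := fun t => by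
    obtain ⟨_, ⟨s, a, rfl⟩, b⟩ := hT t.2
    exact ⟨s, a, b⟩
  choose s a b using c
  refine ⟨T, inferInstance, s, a, fun β hβ => ?_⟩
  have k := (mem_pic hΩ).2 hβ
  rw [e, q, ← Subtype.range_coe (s := (T : Set (BD K ⧸ Prn K)))] at k
  obtain ⟨w, hw⟩ := (Submodule.mem_span_range_iff_exists_fun ℝ).1 k
  refine ⟨w, (Submodule.Quotient.eq _).1 ?_⟩
  change (Prn K).mkQ β = (Prn K).mkQ _
  rw [← hw, lc, map_sum]
  exact Finset.sum_congr rfl fun t _ => by rw [map_smul, b]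

theorem Fano1.ft (hN : NEG) (hK : FF K (n + 1)) (h : Fano1 n Λ) : FT K n := by
  obtain ⟨Γ, t, a⟩ := h.term
  have _ := hN
  have _ := hK
  have z : ∀ P, On n Λ P → dsc (n + 1) Γ P = 0 := fun P hP => sub_eq_zero.2 (t.hull.2 P hP).symm
  refine ⟨Λ, Γ, t.smp, t.big, dsc_car t.smp t.hull.1, fun P hP => (z P hP).le, fun P => ?_,
    (ampOn_smp t.smp a).nef, big_ampOn t.big a⟩
  by_cases x : On n Λ P
  · simp [z P x]
  · linarith [t.pos P x]

/-- **SETUP1** -/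
theorem setup1 (h : GA) (hZ : ZC) : SETUP1 := fun n K _ _ hK Λ hΛ => by
  classical
  have pic := h.ftn.pic n K hK (Fano1.ft h.neg hK (hΛ true))
  choose Γ tΓ aΓ using fun b => (hΛ b).term
  obtain ⟨s₀, κ, ht, cκ, -, hd, -, hq⟩ := h.mod.ex n K hK ∅ (range Λ) finite_empty (finite_range _)
    (by rintro _ ⟨b, rfl⟩; exact smp_car (tΓ b).smp)
  set Ω := mx s₀
  have hΩ := ht.smp
  have e : ∀ b, En n Ω (Λ b) (Γ b) := fun b =>
    ⟨hΩ, ht.big, tΓ b, aΓ b, (hΛ b).qf, (hΛ b).rho, hd _ ⟨b, rfl⟩⟩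
  have := pic Ω hΩ
  obtain ⟨T, _, s, hs, sp⟩ := exists_span hΩ
  choose A cA aA pA gA using fun b => (e b).cls h.neg h.mod hK h.sep (carQ_mx s₀) ht
  choose Ω' c₀ hc using fun b => (e b).ex h.neg h.mod hK (smp_car hΩ)
  have c0 : ∀ b, 0 < c₀ b := fun b => (e b).pos h.neg h.mod hK (hc b) ht.big
  obtain ⟨δ, d0, d1⟩ := small_rat (p := fun t => ∀ b, t * c₀ b < 1 ∧ t < c₀ b)
    (eventually_all.2 fun b => ((show ContinuousAt (fun t : ℝ => t * c₀ b) 0 by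
      fun_prop).eventually (gt_mem_nhds (by simp))).and (gt_mem_nhds (c0 b)))
  let B : Bool ⊕ Bool ⊕ T → BD K := Sum.elim A (Sum.elim
    (fun b => if b then ((δ⁻¹ : ℚ) : ℝ) • Ω else (δ : ℝ) • Ω) fun t => ((δ⁻¹ : ℚ) : ℝ) • Ω + mx (s t))
  have di : (0 : ℝ) < ((δ⁻¹ : ℚ) : ℝ) := by simpa using d0
  have hB : ∀ i, CarQ (B i) ∧ AmpOn Ω (B i) := by
    rintro (b | b | t)
    · exact ⟨cA b, aA b⟩
    · cases b
      · exact ⟨(carQ_mx s₀).qsmul δ, ampOn_smul hΩ (ampOn_self hΩ) d0⟩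
      · exact ⟨(carQ_mx s₀).qsmul δ⁻¹, ampOn_smul hΩ (ampOn_self hΩ) di⟩
    · exact ⟨((carQ_mx s₀).qsmul δ⁻¹).add (carQ_mx _),
        ampOn_add hΩ (ampOn_smul hΩ (ampOn_self hΩ) di) (hs t) (smp_mx _)⟩
  let D : Bool ⊕ Bool ⊕ T → BD K := fun i => κ + B i
  have hD : ∀ i, Dsc Ω (D i) := fun i => dsc_add hΩ ht.hull.1 (hB i).2.1
  have am : ∀ i, AmpOn Ω (D i - κ) := fun i => by simpa [D] using (hB i).2
  obtain ⟨H, N, hz⟩ := hZ n K hK _ Ω κ D ht fun i => ⟨(CarZ.carQ cκ).add (hB i).1, am i⟩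
  choose D' c hp using fun b i => (e b).ex h.neg h.mod hK (dsc_car hΩ (hD i))
  have u : ∀ b (r : ℝ), Pu n (Λ b) (Γ b) (κ + r • Ω) (Γ b + r • Ω' b) (-1 + r * c₀ b) := fun b r =>
    ((e b).kap h.neg hK h.mod h.sep ht).add (tΓ b).smp ((hc b).smul (tΓ b).smp r)
  have cj : ∀ b, c b (.inr (.inl false)) < 0 := fun b => by
    rw [((e b).uniq h.neg h.mod hK (hp b (.inr (.inl false))) (u b δ)).2]
    linarith [(d1 b).1]
  have ck : ∀ b, 0 < c b (.inr (.inl true)) := fun b => by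
    rw [((e b).uniq h.neg h.mod hK (hp b (.inr (.inl true))) (u b (δ⁻¹ : ℚ))).2, Rat.cast_inv,
      inv_mul_eq_div]
    linarith [(one_lt_div d0).2 (d1 b).2]
  obtain ⟨η, e0, e1⟩ := small (a := Pi.single (.inr (.inl false)) 1)
    (U := {a | ∀ b, Fintype.linearCombination ℝ (c b) a < 0}) (eventually_all.2 fun b =>
      (isOpen_lt (LinearMap.continuous_of_finiteDimensional _) continuous_const).mem_nhds
        (by simpa using cj b)) 1
  choose q x gx ox hq' sx fx using fun b => (e b).see h.neg h.mod hK hD (hp b) (i := .inl b)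
    (fun P a a' => by
      have z := ((e b).uniq h.neg h.mod hK (hp b (.inl b)) (pA b)).1
      have w : ∀ F : Bool ⊕ Bool ⊕ T → BD K, lc F (Pi.single (.inl b) 1) = F (.inl b) :=
        fun F => by simp [lc, Pi.single_apply]
      rw [w, w, z, sub_zero]
      exact gA b P a a')
    ((e b).uniq h.neg h.mod hK (hp b (.inl b)) (pA b)).2 (cj b) (ck b) (e1 b)
  refine ⟨_, inferInstance, Ω, κ, D, H, N, _, q, x, ⟨ht, fun P hP => ?_, pic, am, fun β hβ => ?_,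
    hz⟩, CarZ.carQ cκ, fun i => (CarZ.carQ cκ).add (hB i).1, ⟨fun i => ?_, fun y => ?_, hq', fun b => ⟨sx b, fx b⟩⟩,
    fun b => (e b).near h.neg h.mod hK h.sep hD (hp b) hz (gx b) (ox b)⟩
  · obtain ⟨β, a, b⟩ := hq P hP
    exact ⟨β, CarZ.carQ a, b⟩
  · obtain ⟨a, ha⟩ := sp β hβ
    refine ⟨Sum.elim 0 (Sum.elim (fun b => if b then -∑ t, a t else 0) a), ?_⟩
    have z : lc D (Sum.elim 0 (Sum.elim (fun b => if b then -∑ t, a t else 0) a)) =
        lc (fun t => mx (s t)) a := by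
      simp only [lc, D, B, Fintype.sum_sum_type, Fintype.sum_bool, Sum.elim_inl, Sum.elim_inr,
        Pi.zero_apply, zero_smul, smul_add, Finset.sum_add_distrib, ← Finset.sum_smul]
      simp
    rwa [z]
  · refine add_pos_of_nonneg_of_pos ?_ (by simpa using e0)
    rw [Pi.single_apply]
    split_ifs <;> simp
  · exact (e1 true).not_ge ((e true).clo h.neg h.mod hK (hp true) (subset_closure y))

end Vale.Agent.P287D.Gs
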